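/-
Row 258, block [GEV] (architect helper252).  FILE CalcL: affine substitutions, one variable, derivatives, linear maps.
* `gev_comp_affine`: `iteratedFDeriv_comp_add_right`-type translation lemma + `ContinuousLinearMap.iteratedFDeriv_comp_right`
  + `ContinuousMultilinearMap.norm_compContinuousLinearMap_le` (`‖D^n f ∘ (L,…,L)‖ ≤ ‖D^n f‖ ‖L‖^n`).
* one variable: `norm_iteratedFDeriv_eq_norm_iteratedDeriv`.
* `gev_deriv`: `iteratedDeriv_succ'` (`iteratedDeriv (n+1) f = iteratedDeriv n (deriv f)`), `(n+1)! ^ s ≤ (2^s)^n n!^s`.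
* `gev_clm`: `D L = L`, `D^n L = 0` for `n ≥ 2` (`ContinuousLinearMap.iteratedFDeriv_eq…`/ `iteratedFDeriv_succ_eq_comp_right`, `fderiv` const).
-/
import Claimed.Agent.R258.Pack011

set_option autoImplicit false
open scoped ContDiff

namespace Claimed.Agent.R258

section
variable {E E' F : Type*} [NormedAddCommGroup E] [NormedSpace ℝ E] [NormedAddCommGroup E'] [NormedSpace ℝ E']
  [NormedAddCommGroup F] [NormedSpace ℝ F]

/-- substitution `y ↦ L y + c` -/
theorem gev_comp_affine {s : ℕ} {B A K : ℝ} {f : E → F} {S : Set E} (hA : 0 ≤ A) (hf : GevOn s B A f S) (L : E' →L[ℝ] E)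
    (c : E) (hK : ‖L‖ ≤ K) : GevOn s B (A * K) (fun y => f (L y + c)) {y | L y + c ∈ S} := by
  exact gev_iff_w.2 (gevw_comp_affine (gev_wt_fact s) hA (gev_iff_w.1 hf) L c hK)

/-- translation -/
theorem gev_comp_add {s : ℕ} {B A : ℝ} {f : E → F} {S : Set E} (hf : GevOn s B A f S) (c : E) :
    GevOn s B A (fun y => f (y + c)) {y | y + c ∈ S} := by
  refine ⟨hf.smooth.comp (contDiff_id.add contDiff_const), fun y hy n => ?_⟩
  rw [iteratedFDeriv_comp_add_right]
  exact hf.bound _ hy n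

theorem gev_comp_sub {s : ℕ} {B A : ℝ} {f : E → F} {S : Set E} (hf : GevOn s B A f S) (c : E) :
    GevOn s B A (fun y => f (y - c)) {y | y - c ∈ S} := by
  have := gev_comp_add hf (-c)
  simpa only [← sub_eq_add_neg] using this

/-- one variable: the bound in terms of `iteratedDeriv` -/
theorem gev_of_iteratedDeriv {s : ℕ} {B A : ℝ} {f : ℝ → F} {S : Set ℝ} (hs : ContDiff ℝ ∞ f)
    (hb : ∀ x ∈ S, ∀ n : ℕ, ‖iteratedDeriv n f x‖ ≤ B * A ^ n * (n.factorial : ℝ) ^ s) : GevOn s B A f S := by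
  refine ⟨hs, fun x hx n => ?_⟩
  rw [norm_iteratedFDeriv_eq_norm_iteratedDeriv]
  exact hb x hx n

theorem gev_iteratedDeriv_le {s : ℕ} {B A : ℝ} {f : ℝ → F} {S : Set ℝ} (hf : GevOn s B A f S) {x : ℝ} (hx : x ∈ S) (n : ℕ) :
    ‖iteratedDeriv n f x‖ ≤ B * A ^ n * (n.factorial : ℝ) ^ s := by
  rw [← norm_iteratedFDeriv_eq_norm_iteratedDeriv]
  exact hf.bound x hx n

/-- one variable: substitution `y ↦ a * y + c` -/
theorem gev_comp_affine_real {s : ℕ} {B A : ℝ} {f : ℝ → F} {S : Set ℝ} (hA : 0 ≤ A) (hf : GevOn s B A f S) (a c : ℝ) :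
    GevOn s B (A * |a|) (fun y => f (a * y + c)) {y | a * y + c ∈ S} := by
  have h := gev_comp_affine hA hf (a • ContinuousLinearMap.id ℝ ℝ) c (K := |a|) (by
    rw [norm_smul]
    calc ‖a‖ * ‖ContinuousLinearMap.id ℝ ℝ‖ ≤ ‖a‖ * 1 :=
          mul_le_mul_of_nonneg_left ContinuousLinearMap.norm_id_le (norm_nonneg _)
      _ = |a| := by simp)
  simpa using h

/-- a function of one coordinate -/
theorem gev_comp_proj {ι : Type*} [Fintype ι] {s : ℕ} {B A : ℝ} {f : ℝ → F} {S : Set ℝ} (hA : 0 ≤ A) (hf : GevOn s B A f S)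
    (i : ι) : GevOn s B A (fun x : ι → ℝ => f (x i)) {x | x i ∈ S} := by
  have h := gev_comp_affine hA hf (ContinuousLinearMap.proj (R := ℝ) (φ := fun _ : ι => ℝ) i) 0 (K := 1)
    (ContinuousLinearMap.opNorm_le_bound _ zero_le_one (fun x => by
      simpa using norm_le_pi_norm x i))
  simpa using h

theorem gev_comp_fst {s : ℕ} {B A : ℝ} {f : E → F} {S : Set E} (hA : 0 ≤ A) (hf : GevOn s B A f S) :
    GevOn s B A (fun p : E × E' => f p.1) {p | p.1 ∈ S} := by
  have h := gev_comp_affine hA hf (ContinuousLinearMap.fst ℝ E E') 0 (K := 1)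
    (ContinuousLinearMap.norm_fst_le ℝ E E')
  simpa using h

theorem gev_comp_snd {s : ℕ} {B A : ℝ} {f : E' → F} {S : Set E'} (hA : 0 ≤ A) (hf : GevOn s B A f S) :
    GevOn s B A (fun p : E × E' => f p.2) {p | p.2 ∈ S} := by
  have h := gev_comp_affine hA hf (ContinuousLinearMap.snd ℝ E E') 0 (K := 1)
    (ContinuousLinearMap.norm_snd_le ℝ E E')
  simpa using h

theorem gev_fact_succ_le (s n : ℕ) : ((n + 1).factorial : ℝ) ^ s ≤ (2 ^ s) ^ n * (n.factorial : ℝ) ^ s := by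
  rw [← pow_mul, mul_comm s n, pow_mul, ← mul_pow]
  apply pow_le_pow_left₀ (by positivity)
  rw [Nat.factorial_succ]
  push_cast
  have : ((n : ℝ) + 1) ≤ 2 ^ n := by exact_mod_cast (Nat.lt_two_pow_self (n := n))
  exact mul_le_mul_of_nonneg_right this (by positivity)

theorem gev_fact_add_le (s n k : ℕ) :
    ((n + k).factorial : ℝ) ^ s ≤ (2 ^ s) ^ (n + k) * ((n.factorial : ℝ) ^ s * (k.factorial : ℝ) ^ s) := by
  rw [← pow_mul, mul_comm s (n + k), pow_mul, ← mul_pow, ← mul_pow]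
  apply pow_le_pow_left₀ (by positivity)
  have h := Nat.add_choose_mul_factorial_mul_factorial n k
  have h2 := Nat.choose_le_two_pow (n + k) k
  have h3 : ((n + k).factorial : ℝ) = ((n + k).choose k : ℝ) * (n.factorial : ℝ) * (k.factorial : ℝ) := by
    exact_mod_cast h.symm
  rw [h3, mul_assoc]
  apply mul_le_mul_of_nonneg_right _ (by positivity)
  exact_mod_cast h2

theorem gev_iteratedDeriv_add {F : Type*} [NormedAddCommGroup F] [NormedSpace ℝ F] (f : ℝ → F) (n k : ℕ) :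
    iteratedDeriv n (iteratedDeriv k f) = iteratedDeriv (n + k) f := by
  simp only [iteratedDeriv_eq_iterate, Function.iterate_add_apply]

/-- derivative in one variable -/
theorem gev_deriv {s : ℕ} {B A : ℝ} {f : ℝ → F} {S : Set ℝ} (hA : 0 ≤ A) (hf : GevOn s B A f S) :
    GevOn s (B * A) (2 ^ s * A) (deriv f) S := by
  refine gev_of_iteratedDeriv (contDiff_infty_iff_deriv.1 hf.smooth).2 fun x hx n => ?_
  rw [← iteratedDeriv_succ']
  refine (gev_iteratedDeriv_le hf hx (n + 1)).trans ?_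
  have hB := gev_B_nonneg hf hx
  calc B * A ^ (n + 1) * ((n + 1).factorial : ℝ) ^ s
      ≤ B * A ^ (n + 1) * ((2 ^ s) ^ n * (n.factorial : ℝ) ^ s) :=
        mul_le_mul_of_nonneg_left (gev_fact_succ_le s n) (by positivity)
    _ = _ := by rw [mul_pow, pow_succ]; ring

theorem gev_iteratedDeriv {s : ℕ} {B A : ℝ} {f : ℝ → F} {S : Set ℝ} (hA : 0 ≤ A) (hf : GevOn s B A f S) (k : ℕ) :
    GevOn s (B * (2 ^ s * A) ^ k * (k.factorial : ℝ) ^ s) (2 ^ s * A) (iteratedDeriv k f) S := by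
  refine gev_of_iteratedDeriv (by rw [iteratedDeriv_eq_iterate]; exact hf.smooth.iterate_deriv k) fun x hx n => ?_
  rw [gev_iteratedDeriv_add]
  refine (gev_iteratedDeriv_le hf hx (n + k)).trans ?_
  have hB := gev_B_nonneg hf hx
  calc B * A ^ (n + k) * ((n + k).factorial : ℝ) ^ s
      ≤ B * A ^ (n + k) * ((2 ^ s) ^ (n + k) * ((n.factorial : ℝ) ^ s * (k.factorial : ℝ) ^ s)) :=
        mul_le_mul_of_nonneg_left (gev_fact_add_le s n k) (by positivity)
    _ = _ := by rw [mul_pow, mul_pow, pow_add, pow_add]; ring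

/-- primitive: if `deriv g = f` then the bounds of `f` and a sup bound of `g` give bounds for `g` -/
theorem gev_of_deriv {s : ℕ} {B B' A : ℝ} {f g : ℝ → F} {S : Set ℝ} (hA : 0 ≤ A) (hf : GevOn s B A f S)
    (hg : ∀ x, HasDerivAt g (f x) x) (h0 : ∀ x ∈ S, ‖g x‖ ≤ B') (hB : B ≤ B' * A) : GevOn s B' A g S := by
  have hd : deriv g = f := funext fun x => (hg x).deriv
  refine gev_of_iteratedDeriv (contDiff_infty_iff_deriv.2 ⟨fun x => (hg x).differentiableAt, hd ▸ hf.smooth⟩)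
    fun x hx n => ?_
  have hB' : 0 ≤ B' := (norm_nonneg _).trans (h0 x hx)
  rcases n with _ | n
  · simpa using h0 x hx
  · rw [iteratedDeriv_succ', hd]
    refine (gev_iteratedDeriv_le hf hx n).trans ?_
    have h1 : (n.factorial : ℝ) ^ s ≤ ((n + 1).factorial : ℝ) ^ s :=
      pow_le_pow_left₀ (by positivity) (by exact_mod_cast Nat.factorial_le (Nat.le_succ n)) s
    calc B * A ^ n * (n.factorial : ℝ) ^ s ≤ (B' * A) * A ^ n * ((n + 1).factorial : ℝ) ^ s := by
          apply mul_le_mul (mul_le_mul_of_nonneg_right hB (by positivity)) h1 (by positivity) (by positivity)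
      _ = _ := by rw [pow_succ]; ring

/-- Fréchet derivative -/
theorem gev_fderiv {s : ℕ} {B A : ℝ} {f : E → F} {S : Set E} (hA : 0 ≤ A) (hf : GevOn s B A f S) :
    GevOn s (B * A) (2 ^ s * A) (fderiv ℝ f) S := by
  refine ⟨hf.smooth.fderiv_right (by simp), fun x hx n => ?_⟩
  rw [norm_iteratedFDeriv_fderiv]
  refine (hf.bound x hx (n + 1)).trans ?_
  have hB := gev_B_nonneg hf hx
  calc B * A ^ (n + 1) * ((n + 1).factorial : ℝ) ^ s
      ≤ B * A ^ (n + 1) * ((2 ^ s) ^ n * (n.factorial : ℝ) ^ s) :=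
        mul_le_mul_of_nonneg_left (gev_fact_succ_le s n) (by positivity)
    _ = _ := by rw [mul_pow, pow_succ]; ring

/-- a continuous linear map on a bounded set has order `0` -/
theorem gev_clm {K M : ℝ} (L : E →L[ℝ] F) (hK : ‖L‖ ≤ K) (hM : 1 ≤ M) {S : Set E} (hS : ∀ x ∈ S, ‖x‖ ≤ M) :
    GevOn 0 (K * M) 1 (fun x => L x) S := by
  have hK0 : 0 ≤ K := (norm_nonneg _).trans hK
  refine ⟨L.contDiff, fun x hx n => ?_⟩
  simp only [one_pow, pow_zero, mul_one]
  rcases n with _ | _ | n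
  · rw [norm_iteratedFDeriv_zero]
    exact (L.le_opNorm x).trans (mul_le_mul hK (hS x hx) (norm_nonneg _) hK0)
  · rw [zero_add, norm_iteratedFDeriv_one]
    have : fderiv ℝ (fun x => L x) x = L := L.fderiv
    rw [this]
    calc ‖L‖ ≤ K := hK
      _ ≤ K * M := le_mul_of_one_le_right hK0 hM
  · rw [← norm_iteratedFDeriv_fderiv]
    have : fderiv ℝ (fun x => L x) = fun _ => L := funext fun y => L.fderiv
    rw [this, iteratedFDeriv_const_of_ne (Nat.succ_ne_zero n)]
    simp only [Pi.zero_apply, norm_zero]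
    positivity

/-- the identity of `ℝ` on `[-M, M]` -/
theorem gev_id {M : ℝ} (hM : 1 ≤ M) : GevOn 0 M 1 (fun x : ℝ => x) {x | |x| ≤ M} := by
  have h := gev_clm (ContinuousLinearMap.id ℝ ℝ) (K := 1) ContinuousLinearMap.norm_id_le hM
    (S := {x : ℝ | |x| ≤ M}) (fun x hx => by simpa using hx)
  simpa using h

/-- a coordinate on the cube `[-M, M]^ι` -/
theorem gev_coord {ι : Type*} [Fintype ι] {M : ℝ} (hM : 1 ≤ M) (i : ι) :
    GevOn 0 M 1 (fun x : ι → ℝ => x i) {x | ∀ j, |x j| ≤ M} := by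
  have h := gev_clm (ContinuousLinearMap.proj (R := ℝ) (φ := fun _ : ι => ℝ) i) (K := 1)
    (ContinuousLinearMap.opNorm_le_bound _ zero_le_one (fun x => by simpa using norm_le_pi_norm x i)) hM
    (S := {x : ι → ℝ | ∀ j, |x j| ≤ M})
    (fun x hx => (pi_norm_le_iff_of_nonneg (by linarith)).2 (fun j => by simpa using hx j))
  simpa using h

/-- a linear form `∑ a_i x_i` on the cube -/
theorem gev_linform {ι : Type*} [Fintype ι] {M : ℝ} (hM : 1 ≤ M) (a : ι → ℝ) :
    GevOn 0 ((∑ i, |a i|) * M) 1 (fun x : ι → ℝ => ∑ i, a i * x i) {x | ∀ j, |x j| ≤ M} := by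
  have h := gev_sum Finset.univ (fun i _ => gev_const_smul (a i) (gev_coord hM i))
  rw [Finset.sum_mul]
  simpa using h

/-- a quadratic form `∑ Q_ij x_i x_j` on the cube -/
theorem gev_quadform {ι : Type*} [Fintype ι] {M : ℝ} (hM : 1 ≤ M) (Q : ι → ι → ℝ) :
    GevOn 0 ((∑ i, ∑ j, |Q i j|) * M ^ 2) 2 (fun x : ι → ℝ => ∑ i, ∑ j, Q i j * x i * x j) {x | ∀ j, |x j| ≤ M} := by
  have h := gev_sum Finset.univ (fun i _ => gev_sum Finset.univ (fun j _ =>
    gev_const_smul (Q i j) (gev_mul zero_le_one zero_le_one (gev_coord hM i) (gev_coord hM j))))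
  have e : (∑ i, ∑ j, |Q i j|) * M ^ 2 = ∑ i, ∑ j, ‖Q i j‖ * (M * M) := by
    rw [Finset.sum_mul]
    refine Finset.sum_congr rfl fun i _ => ?_
    rw [Finset.sum_mul]
    refine Finset.sum_congr rfl fun j _ => ?_
    rw [Real.norm_eq_abs, sq]
  rw [e]
  have e2 : (2 : ℝ) = 1 + 1 := by norm_num
  rw [e2]
  refine gev_congr h fun x => ?_
  simp only [smul_eq_mul, mul_assoc]

/-- sharp form of `gev_clm`: on the ball of radius `M` a continuous linear map has constants `(K M, 1/M)` -/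
theorem gev_clm_sharp {K M : ℝ} (L : E →L[ℝ] F) (hK : ‖L‖ ≤ K) (hM : 0 < M) {S : Set E} (hS : ∀ x ∈ S, ‖x‖ ≤ M) :
    GevOn 0 (K * M) M⁻¹ (fun x => L x) S := by
  have hK0 : 0 ≤ K := (norm_nonneg _).trans hK
  refine ⟨L.contDiff, fun x hx n => ?_⟩
  simp only [pow_zero, mul_one]
  rcases n with _ | _ | n
  · rw [norm_iteratedFDeriv_zero, pow_zero, mul_one]
    exact (L.le_opNorm x).trans (mul_le_mul hK (hS x hx) (norm_nonneg _) hK0)
  · rw [zero_add, norm_iteratedFDeriv_one]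
    have : fderiv ℝ (fun x => L x) x = L := L.fderiv
    rw [this, pow_one, mul_assoc, mul_inv_cancel₀ hM.ne', mul_one]
    exact hK
  · rw [← norm_iteratedFDeriv_fderiv]
    have : fderiv ℝ (fun x => L x) = fun _ => L := funext fun y => L.fderiv
    rw [this, iteratedFDeriv_const_of_ne (Nat.succ_ne_zero n)]
    simp only [Pi.zero_apply, norm_zero]
    positivity

/-- derivatives of order `≥ 1` of a function of order `0` -/
theorem gev_order_zero_le {B A : ℝ} {f : E → F} {S : Set E} (hA : 0 ≤ A) (hf : GevOn 0 B A f S) {x : E} (hx : x ∈ S)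
    {i : ℕ} (hi : 1 ≤ i) : ‖iteratedFDeriv ℝ i f x‖ ≤ (max 1 B * A) ^ i := by
  refine (hf.bound x hx i).trans ?_
  simp only [pow_zero, mul_one]
  rw [mul_pow]
  apply mul_le_mul_of_nonneg_right _ (by positivity)
  exact (le_max_right 1 B).trans (le_self_pow₀ (le_max_left _ _) (by omega))

end

end Claimed.Agent.R258
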