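/-
Row 258, block [GEV] (architect helper252).  FILE Conv: conversions between `GevOn` and the three bound shapes of the row.
  (a) `Chart.Cplx.deriv` : `H^(cGev (n+1)) (n+1)^(cGev (n+1))`, `cGev = 10` (rpow)
  (b) `Admissible.deriv` : `(len^n)⁻¹ (C0 (n+2))^(C0 (n+2))`
  (c) `GB C`             : `(C (n+2))^(C (n+2))`
PLANS.
* `gev_chart_shape`: rewrite the rpow's as natural powers: `H^(10 (n+1)) = (H^10)^(n+1)` (`Real.rpow_natCast`, `cGev`), same for `(n+1)`.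
* `gev_to_chart`: `B A^n ≤ H^10 (H^10)^n`, `n!^s ≤ ((n+1)^n)^s ≤ (n+1)^(10 (n+1))` (`Nat.factorial_le_pow`-type: `n! ≤ n^n ≤ (n+1)^n`).
* `gev_of_chart`: `(n+1)^(n+1) ≤ e^(n+1) (n+1)!` (from `Real.pow_div_factorial_le_exp` at `x = n+1`), `e ≤ 3`, `(n+1)! ≤ 2^n n!`; so
  `(n+1)^(n+1) ≤ 3 * 6^n * n!` and the shape (a) is `≤ (3H)^10 ((6H)^10)^n n!^10`.
* `gev_to_GB`: with `X = C (n+2) ≥ 2`: `X^(C (n+2)) = X^(2C) X^(C n) ≥ C * (C^n (n+2)^(s n))` and `A^n n!^s ≤ C^n (n+2)^(s n)`.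
* `gev_of_GB`: `k = ⌈C⌉₊`; `X^(C (n+2)) ≤ X^(k (n+2)) = (C^(n+2) (n+2)^(n+2))^k`, `(n+2)^(n+2) ≤ 3^(n+2) (n+2)! ≤ 3^(n+2) 2 * 4^n n!`:
  shape (c) `≤ (18 C^2)^k ((12 C)^k)^n n!^k`.
-/
import Claimed.Agent.R258.Pack021

set_option autoImplicit false
open scoped ContDiff

namespace Claimed.Agent.R258

/-- the shape (a) with natural powers -/
theorem gev_chart_shape {H : ℝ} (hH : 0 ≤ H) (n : ℕ) :
    H ^ (cGev * ((n : ℝ) + 1)) * ((n : ℝ) + 1) ^ (cGev * ((n : ℝ) + 1)) = (H ^ 10) ^ (n + 1) * (((n : ℝ) + 1) ^ (n + 1)) ^ 10 := by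
  have he : cGev * ((n : ℝ) + 1) = ((10 * (n + 1) : ℕ) : ℝ) := by
    unfold cGev; push_cast; ring
  rw [he, Real.rpow_natCast, Real.rpow_natCast, ← pow_mul, ← pow_mul, mul_comm (n + 1) 10]

/-- `m^m ≤ 3^m m!` -/
theorem gev_pow_self_le (m : ℕ) : (m : ℝ) ^ m ≤ 3 ^ m * (m.factorial : ℝ) := by
  have h1 := Real.pow_div_factorial_le_exp (m : ℝ) (Nat.cast_nonneg m) m
  have hf : (0 : ℝ) < (m.factorial : ℝ) := by exact_mod_cast m.factorial_pos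
  rw [div_le_iff₀ hf] at h1
  have h2 : Real.exp (m : ℝ) ≤ 3 ^ m := by
    have h3 : Real.exp (m : ℝ) = Real.exp 1 ^ m := by
      rw [← Real.exp_nat_mul]; simp
    rw [h3]
    exact pow_le_pow_left₀ (Real.exp_pos 1).le (by have := Real.exp_one_lt_d9; linarith) m
  exact h1.trans (mul_le_mul_of_nonneg_right h2 hf.le)

theorem gev_succ_pow_le (n : ℕ) : ((n : ℝ) + 1) ^ (n + 1) ≤ 3 * 6 ^ n * (n.factorial : ℝ) := by
  have h := gev_pow_self_le (n + 1)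
  push_cast at h
  have h2 : ((n : ℝ) + 1) ≤ 2 ^ n := by
    have := Nat.lt_two_pow_self (n := n)
    exact_mod_cast this
  have hf : (0 : ℝ) < (n.factorial : ℝ) := by exact_mod_cast n.factorial_pos
  rw [Nat.factorial_succ] at h
  push_cast at h
  calc ((n : ℝ) + 1) ^ (n + 1) ≤ 3 ^ (n + 1) * (((n : ℝ) + 1) * (n.factorial : ℝ)) := h
    _ ≤ 3 ^ (n + 1) * (2 ^ n * (n.factorial : ℝ)) := by gcongr
    _ = 3 * 6 ^ n * (n.factorial : ℝ) := by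
      rw [show (6 : ℝ) = 3 * 2 by norm_num, mul_pow]; ring

theorem gev_add_two_pow_le (n : ℕ) : ((n : ℝ) + 2) ^ (n + 2) ≤ 18 * 12 ^ n * (n.factorial : ℝ) := by
  have h2 : ((n : ℝ) + 2) * ((n : ℝ) + 1) ≤ 2 * 4 ^ n := by
    induction n with
    | zero => norm_num
    | succ k ih =>
      push_cast
      rw [pow_succ]
      have hk : (0 : ℝ) ≤ (k : ℝ) := Nat.cast_nonneg k
      nlinarith
  have h := gev_pow_self_le (n + 2)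
  push_cast at h
  have hf : (0 : ℝ) < (n.factorial : ℝ) := by exact_mod_cast n.factorial_pos
  rw [Nat.factorial_succ, Nat.factorial_succ] at h
  push_cast at h
  calc ((n : ℝ) + 2) ^ (n + 2) ≤ 3 ^ (n + 2) * (((n : ℝ) + 1 + 1) * (((n : ℝ) + 1) * (n.factorial : ℝ))) := h
    _ = 3 ^ (n + 2) * ((((n : ℝ) + 2) * ((n : ℝ) + 1)) * (n.factorial : ℝ)) := by ring
    _ ≤ 3 ^ (n + 2) * ((2 * 4 ^ n) * (n.factorial : ℝ)) := by gcongr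
    _ = 18 * 12 ^ n * (n.factorial : ℝ) := by
      rw [show (12 : ℝ) = 3 * 4 by norm_num, mul_pow]; ring

/-- `n! ≤ (n+a)^n` -/
theorem gev_factorial_le_pow (n : ℕ) {a : ℝ} (ha : 0 ≤ a) : (n.factorial : ℝ) ≤ ((n : ℝ) + a) ^ n := by
  have h1 : (n.factorial : ℝ) ≤ (n : ℝ) ^ n := by exact_mod_cast Nat.factorial_le_pow n
  exact h1.trans (pow_le_pow_left₀ (Nat.cast_nonneg n) (by linarith) n)

/-- the numerical content of `gev_to_GB` -/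
theorem gev_num_GB {s : ℕ} {B A C : ℝ} (hC : 1 ≤ C) (hs : (s : ℝ) ≤ C) (hA0 : 0 ≤ A) (hA : A ≤ C) (hB : B ≤ C) (n : ℕ) :
    B * A ^ n * (n.factorial : ℝ) ^ s ≤ (C * ((n : ℝ) + 2)) ^ (C * ((n : ℝ) + 2)) := by
  have hn : (0 : ℝ) ≤ (n : ℝ) := Nat.cast_nonneg n
  have hC0 : (0 : ℝ) ≤ C := by linarith
  rw [Real.mul_rpow hC0 (by linarith)]
  have e1 : C * C ^ n ≤ C ^ (C * ((n : ℝ) + 2)) := by
    rw [← pow_succ', ← Real.rpow_natCast]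
    apply Real.rpow_le_rpow_of_exponent_le hC
    push_cast
    nlinarith
  have e2 : (n.factorial : ℝ) ^ s ≤ ((n : ℝ) + 2) ^ (C * ((n : ℝ) + 2)) := by
    calc (n.factorial : ℝ) ^ s ≤ (((n : ℝ) + 2) ^ n) ^ s :=
          pow_le_pow_left₀ (Nat.cast_nonneg _) (gev_factorial_le_pow n (by norm_num)) s
      _ = ((n : ℝ) + 2) ^ (((n * s : ℕ) : ℝ)) := by rw [Real.rpow_natCast, pow_mul]
      _ ≤ ((n : ℝ) + 2) ^ (C * ((n : ℝ) + 2)) := by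
        apply Real.rpow_le_rpow_of_exponent_le (by linarith)
        push_cast
        nlinarith [mul_le_mul_of_nonneg_left hs hn]
  have e3 : B * A ^ n ≤ C * C ^ n := by
    have hAn : A ^ n ≤ C ^ n := pow_le_pow_left₀ hA0 hA n
    have hAn0 : 0 ≤ A ^ n := pow_nonneg hA0 n
    calc B * A ^ n ≤ C * A ^ n := mul_le_mul_of_nonneg_right hB hAn0
      _ ≤ C * C ^ n := mul_le_mul_of_nonneg_left hAn hC0
  have hf0 : (0 : ℝ) ≤ (n.factorial : ℝ) ^ s := by positivity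
  calc B * A ^ n * (n.factorial : ℝ) ^ s ≤ C ^ (C * ((n : ℝ) + 2)) * (n.factorial : ℝ) ^ s :=
        mul_le_mul_of_nonneg_right (e3.trans e1) hf0
    _ ≤ C ^ (C * ((n : ℝ) + 2)) * ((n : ℝ) + 2) ^ (C * ((n : ℝ) + 2)) :=
        mul_le_mul_of_nonneg_left e2 (Real.rpow_nonneg hC0 _)

/-- the numerical content of `gev_of_GB` -/
theorem gev_num_of_GB {C : ℝ} (hC : 1 ≤ C) (n : ℕ) :
    (C * ((n : ℝ) + 2)) ^ (C * ((n : ℝ) + 2)) ≤ (18 * C ^ 2) ^ ⌈C⌉₊ * ((12 * C) ^ ⌈C⌉₊) ^ n * (n.factorial : ℝ) ^ ⌈C⌉₊ := by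
  have hn : (0 : ℝ) ≤ (n : ℝ) := Nat.cast_nonneg n
  have hC0 : (0 : ℝ) ≤ C := by linarith
  have hX : 1 ≤ C * ((n : ℝ) + 2) := by nlinarith
  have hk : C ≤ (⌈C⌉₊ : ℝ) := Nat.le_ceil C
  calc (C * ((n : ℝ) + 2)) ^ (C * ((n : ℝ) + 2))
      ≤ (C * ((n : ℝ) + 2)) ^ (((((n + 2) * ⌈C⌉₊ : ℕ)) : ℝ)) := by
        apply Real.rpow_le_rpow_of_exponent_le hX
        push_cast
        nlinarith [mul_le_mul_of_nonneg_right hk (by linarith : (0 : ℝ) ≤ (n : ℝ) + 2)]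
    _ = (C ^ (n + 2) * ((n : ℝ) + 2) ^ (n + 2)) ^ ⌈C⌉₊ := by
        rw [Real.rpow_natCast, pow_mul, mul_pow]
    _ ≤ (C ^ (n + 2) * (18 * 12 ^ n * (n.factorial : ℝ))) ^ ⌈C⌉₊ := by
        apply pow_le_pow_left₀ (by positivity)
        exact mul_le_mul_of_nonneg_left (gev_add_two_pow_le n) (by positivity)
    _ = (18 * C ^ 2) ^ ⌈C⌉₊ * ((12 * C) ^ ⌈C⌉₊) ^ n * (n.factorial : ℝ) ^ ⌈C⌉₊ := by
        rw [← pow_mul, mul_comm ⌈C⌉₊ n, pow_mul, ← mul_pow, ← mul_pow]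
        congr 1
        rw [mul_pow, pow_add]
        ring

section
variable {E F : Type*} [NormedAddCommGroup E] [NormedSpace ℝ E] [NormedAddCommGroup F] [NormedSpace ℝ F]

/-- `GevOn` ⟹ shape (a) -/
theorem gev_to_chart {s : ℕ} {B A H : ℝ} {f : E → F} {S : Set E} (hf : GevOn s B A f S) (hs : s ≤ 10) (hH : 1 ≤ H)
    (hA0 : 0 ≤ A) (hA : A ≤ H ^ 10) (hB : B ≤ H ^ 10) {x : E} (hx : x ∈ S) (n : ℕ) :
    ‖iteratedFDeriv ℝ n f x‖ ≤ H ^ (cGev * ((n : ℝ) + 1)) * ((n : ℝ) + 1) ^ (cGev * ((n : ℝ) + 1)) := by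
  have hH0 : (0 : ℝ) ≤ H := by linarith
  rw [gev_chart_shape hH0]
  refine (hf.bound x hx n).trans ?_
  have hn : (0 : ℝ) ≤ (n : ℝ) := Nat.cast_nonneg n
  have hf1 : (1 : ℝ) ≤ (n.factorial : ℝ) := by exact_mod_cast n.factorial_pos
  have e2 : (n.factorial : ℝ) ^ s ≤ (((n : ℝ) + 1) ^ (n + 1)) ^ 10 := by
    calc (n.factorial : ℝ) ^ s ≤ (n.factorial : ℝ) ^ 10 := pow_le_pow_right₀ hf1 hs
      _ ≤ (((n : ℝ) + 1) ^ (n + 1)) ^ 10 := by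
        apply pow_le_pow_left₀ (by positivity)
        exact (gev_factorial_le_pow n (by norm_num)).trans
          (pow_le_pow_right₀ (by linarith) (Nat.le_succ n))
  have e3 : B * A ^ n ≤ (H ^ 10) ^ (n + 1) := by
    have hAn : A ^ n ≤ (H ^ 10) ^ n := pow_le_pow_left₀ hA0 hA n
    have hAn0 : 0 ≤ A ^ n := pow_nonneg hA0 n
    calc B * A ^ n ≤ H ^ 10 * A ^ n := mul_le_mul_of_nonneg_right hB hAn0
      _ ≤ H ^ 10 * (H ^ 10) ^ n := mul_le_mul_of_nonneg_left hAn (by positivity)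
      _ = (H ^ 10) ^ (n + 1) := (pow_succ' _ _).symm
  calc B * A ^ n * (n.factorial : ℝ) ^ s ≤ (H ^ 10) ^ (n + 1) * (n.factorial : ℝ) ^ s :=
        mul_le_mul_of_nonneg_right e3 (by positivity)
    _ ≤ (H ^ 10) ^ (n + 1) * (((n : ℝ) + 1) ^ (n + 1)) ^ 10 :=
        mul_le_mul_of_nonneg_left e2 (by positivity)

/-- shape (a) ⟹ `GevOn 10` -/
theorem gev_of_chart {H : ℝ} {f : E → F} {S : Set E} (hH : 0 ≤ H) (hs : ContDiff ℝ ∞ f)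
    (hb : ∀ x ∈ S, ∀ n : ℕ,
      ‖iteratedFDeriv ℝ n f x‖ ≤ H ^ (cGev * ((n : ℝ) + 1)) * ((n : ℝ) + 1) ^ (cGev * ((n : ℝ) + 1))) :
    GevOn 10 ((3 * H) ^ 10) ((6 * H) ^ 10) f S := by
  refine ⟨hs, fun x hx n => (hb x hx n).trans ?_⟩
  rw [gev_chart_shape hH]
  have hn : (0 : ℝ) ≤ (n : ℝ) := Nat.cast_nonneg n
  calc (H ^ 10) ^ (n + 1) * (((n : ℝ) + 1) ^ (n + 1)) ^ 10
      ≤ (H ^ 10) ^ (n + 1) * (3 * 6 ^ n * (n.factorial : ℝ)) ^ 10 := by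
        apply mul_le_mul_of_nonneg_left _ (by positivity)
        exact pow_le_pow_left₀ (by positivity) (gev_succ_pow_le n) 10
    _ = (3 * H) ^ 10 * ((6 * H) ^ 10) ^ n * (n.factorial : ℝ) ^ 10 := by
        rw [mul_pow, mul_pow, mul_pow, mul_pow, mul_pow, pow_succ, ← pow_mul, ← pow_mul, ← pow_mul,
          mul_comm n 10]
        ring

/-- the amplitude of a chart of complexity `H` -/
theorem gev_of_cplx {a : Chart} {H : ℝ} (h : a.Cplx H) : Gev 10 ((3 * H) ^ 10) ((6 * H) ^ 10) a.chi :=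
  gev_of_chart ((Real.exp_pos 2).le.trans h.H_ge) h.smooth fun x _ n => h.deriv n x

/-- `GevOn` ⟹ shape (c) -/
theorem gev_to_GB {s : ℕ} {B A C : ℝ} {f : E → F} {S : Set E} (hf : GevOn s B A f S) (hC : 1 ≤ C) (hs : (s : ℝ) ≤ C)
    (hA0 : 0 ≤ A) (hA : A ≤ C) (hB : B ≤ C) {x : E} (hx : x ∈ S) (n : ℕ) :
    ‖iteratedFDeriv ℝ n f x‖ ≤ (C * ((n : ℝ) + 2)) ^ (C * ((n : ℝ) + 2)) :=
  (hf.bound x hx n).trans (gev_num_GB hC hs hA0 hA hB n)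

/-- `GevOn` with rate `A / r` ⟹ shape (b) -/
theorem gev_to_adm {s : ℕ} {B A C r : ℝ} {f : E → F} {S : Set E} (hr : 0 < r) (hf : GevOn s B (A / r) f S) (hC : 1 ≤ C)
    (hs : (s : ℝ) ≤ C) (hA0 : 0 ≤ A) (hA : A ≤ C) (hB : B ≤ C) {x : E} (hx : x ∈ S) (n : ℕ) :
    ‖iteratedFDeriv ℝ n f x‖ ≤ (r ^ n)⁻¹ * (C * ((n : ℝ) + 2)) ^ (C * ((n : ℝ) + 2)) := by
  refine (hf.bound x hx n).trans ?_
  have : B * (A / r) ^ n * (n.factorial : ℝ) ^ s = (r ^ n)⁻¹ * (B * A ^ n * (n.factorial : ℝ) ^ s) := by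
    rw [div_pow, div_eq_mul_inv]; ring
  rw [this]
  exact mul_le_mul_of_nonneg_left (gev_num_GB hC hs hA0 hA hB n) (by positivity)

/-- shape (c) ⟹ `GevOn ⌈C⌉₊` -/
theorem gev_of_GB {C : ℝ} {f : E → F} {S : Set E} (hC : 1 ≤ C) (hs : ContDiff ℝ ∞ f)
    (hb : ∀ x ∈ S, ∀ n : ℕ, ‖iteratedFDeriv ℝ n f x‖ ≤ (C * ((n : ℝ) + 2)) ^ (C * ((n : ℝ) + 2))) :
    GevOn ⌈C⌉₊ ((18 * C ^ 2) ^ ⌈C⌉₊) ((12 * C) ^ ⌈C⌉₊) f S :=
  ⟨hs, fun x hx n => (hb x hx n).trans (gev_num_of_GB hC n)⟩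

/-- shape (b) ⟹ `GevOn ⌈C⌉₊` with rate `(12 C)^⌈C⌉₊ / r` -/
theorem gev_of_adm {C r : ℝ} {f : E → F} {S : Set E} (hr : 0 < r) (hC : 1 ≤ C) (hs : ContDiff ℝ ∞ f)
    (hb : ∀ x ∈ S, ∀ n : ℕ, ‖iteratedFDeriv ℝ n f x‖ ≤ (r ^ n)⁻¹ * (C * ((n : ℝ) + 2)) ^ (C * ((n : ℝ) + 2))) :
    GevOn ⌈C⌉₊ ((18 * C ^ 2) ^ ⌈C⌉₊) ((12 * C) ^ ⌈C⌉₊ / r) f S := by
  refine ⟨hs, fun x hx n => (hb x hx n).trans ?_⟩
  have : (18 * C ^ 2) ^ ⌈C⌉₊ * ((12 * C) ^ ⌈C⌉₊ / r) ^ n * (n.factorial : ℝ) ^ ⌈C⌉₊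
      = (r ^ n)⁻¹ * ((18 * C ^ 2) ^ ⌈C⌉₊ * ((12 * C) ^ ⌈C⌉₊) ^ n * (n.factorial : ℝ) ^ ⌈C⌉₊) := by
    rw [div_pow, div_eq_mul_inv]; ring
  rw [this]
  exact mul_le_mul_of_nonneg_left (gev_num_of_GB hC n) (by positivity)

/-- the shape (c) is monotone in `C ≥ 1` -/
theorem gev_GB_mono {C C' : ℝ} (hC : 1 ≤ C) (h : C ≤ C') (n : ℕ) :
    (C * ((n : ℝ) + 2)) ^ (C * ((n : ℝ) + 2)) ≤ (C' * ((n : ℝ) + 2)) ^ (C' * ((n : ℝ) + 2)) := by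
  have hn : (0 : ℝ) ≤ (n : ℝ) := Nat.cast_nonneg n
  have h2 : (0 : ℝ) ≤ (n : ℝ) + 2 := by linarith
  have hle : C * ((n : ℝ) + 2) ≤ C' * ((n : ℝ) + 2) := mul_le_mul_of_nonneg_right h h2
  have h0 : 0 ≤ C * ((n : ℝ) + 2) := by nlinarith
  have h1 : 1 ≤ C' * ((n : ℝ) + 2) := by nlinarith
  exact (Real.rpow_le_rpow h0 hle h0).trans (Real.rpow_le_rpow_of_exponent_le h1 hle)

end

/-- one variable: `GevOn` ⟹ shape (c) for `iteratedDeriv` -/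
theorem gev_to_GB_real {s : ℕ} {B A C : ℝ} {f : ℝ → ℝ} {S : Set ℝ} (hf : GevOn s B A f S) (hC : 1 ≤ C) (hs : (s : ℝ) ≤ C)
    (hA0 : 0 ≤ A) (hA : A ≤ C) (hB : B ≤ C) {x : ℝ} (hx : x ∈ S) (n : ℕ) :
    |iteratedDeriv n f x| ≤ (C * ((n : ℝ) + 2)) ^ (C * ((n : ℝ) + 2)) := by
  rw [← Real.norm_eq_abs, ← norm_iteratedFDeriv_eq_norm_iteratedDeriv]
  exact gev_to_GB hf hC hs hA0 hA hB hx n

/-- one variable: shape (c) for `iteratedDeriv` ⟹ `Gev` -/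
theorem gev_of_GB_real {C : ℝ} {f : ℝ → ℝ} (hC : 1 ≤ C) (hs : ContDiff ℝ ∞ f)
    (hb : ∀ (n : ℕ) (x : ℝ), |iteratedDeriv n f x| ≤ (C * ((n : ℝ) + 2)) ^ (C * ((n : ℝ) + 2))) :
    Gev ⌈C⌉₊ ((18 * C ^ 2) ^ ⌈C⌉₊) ((12 * C) ^ ⌈C⌉₊) f :=
  gev_of_GB hC hs fun x _ n => by
    rw [norm_iteratedFDeriv_eq_norm_iteratedDeriv, Real.norm_eq_abs]
    exact hb n x

end Claimed.Agent.R258
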