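/-
Row 258, block [GEV] (architect helper252).  FILE Per: periodisation `gevPer G x = ∑' n : ι → ℤ, G (x - n)` of a function supported in the cube `[-M,M]^ι`.
PLAN.  Fix `x₀`.  Let `T = Fintype.piFinset fun i => Finset.Icc ⌊x₀ i - M - 1⌋ ⌈x₀ i + M + 1⌉`.  For `‖x - x₀‖ < 1` all `n ∉ T` have `G (x - n) = 0`, so
`gevPer G x = ∑ n ∈ T, G (x - n)` on the ball (`tsum_eq_sum`): `gev_per_eventually`.  Hence smoothness (`contDiff_iff_contDiffAt`, finite sums of translates), and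
`D^m (gevPer G) x₀ = ∑ n ∈ T, D^m G (x₀ - n)` (`Filter.EventuallyEq.iteratedFDeriv_eq`, `iteratedFDeriv_sum`, `iteratedFDeriv_comp_sub`); the terms with
`x₀ - n ∉ [-M,M]^ι` vanish (`gev_iteratedFDeriv_eq_zero`), the others are at most `∏ i, #{k : |x₀ i - k| ≤ M} ≤ (2M+1)^card ι` in number
(`Int.card_Icc`, `⌊x+M⌋ - ⌈x-M⌉ + 1 ≤ 2M+1`).
-/
import Claimed.Agent.R258.Pack021

set_option autoImplicit false
set_option linter.unusedSectionVars false
open scoped ContDiff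

namespace Claimed.Agent.R258

section
variable {ι : Type*} [Fintype ι] {F : Type*} [NormedAddCommGroup F] [NormedSpace ℝ F]

/-- `ℤ^ι`-periodic functions -/
def GevPeriodic {X : Type*} (P : (ι → ℝ) → X) : Prop := ∀ (x : ι → ℝ) (n : ι → ℤ), P (fun i => x i + (n i : ℝ)) = P x

/-- periodisation -/
noncomputable def gevPer (G : (ι → ℝ) → F) (x : ι → ℝ) : F := ∑' n : ι → ℤ, G (fun i => x i - (n i : ℝ))

open Classical in
/-- the finite set of lattice points which matter near `x₀` -/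
noncomputable def gevPerBox (M : ℝ) (x₀ : ι → ℝ) : Finset (ι → ℤ) :=
  Fintype.piFinset fun i => Finset.Icc ⌊x₀ i - M - 1⌋ ⌈x₀ i + M + 1⌉

omit [NormedSpace ℝ F] in
theorem gev_per_zero_off {G : (ι → ℝ) → F} {M : ℝ} (hsupp : ∀ x, G x ≠ 0 → ∀ i, |x i| ≤ M) (x₀ x : ι → ℝ)
    (hx : ∀ i, |x i - x₀ i| ≤ 1) (n : ι → ℤ) (hn : n ∉ gevPerBox M x₀) : G (fun i => x i - (n i : ℝ)) = 0 := by
  classical
  by_contra hne
  apply hn
  unfold gevPerBox
  rw [Fintype.mem_piFinset]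
  intro i
  have h1 := abs_le.1 (hsupp _ hne i)
  have h2 := abs_le.1 (hx i)
  rw [Finset.mem_Icc]
  constructor
  · have : ((⌊x₀ i - M - 1⌋ : ℤ) : ℝ) ≤ (n i : ℝ) := (Int.floor_le _).trans (by linarith [h1.2, h2.1])
    exact_mod_cast this
  · have : (n i : ℝ) ≤ ((⌈x₀ i + M + 1⌉ : ℤ) : ℝ) := le_trans (by linarith [h1.1, h2.2]) (Int.le_ceil _)
    exact_mod_cast this

theorem gev_per_eq_sum {G : (ι → ℝ) → F} {M : ℝ} (hsupp : ∀ x, G x ≠ 0 → ∀ i, |x i| ≤ M) (x₀ x : ι → ℝ)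
    (hx : ∀ i, |x i - x₀ i| ≤ 1) : gevPer G x = ∑ n ∈ gevPerBox M x₀, G (fun i => x i - (n i : ℝ)) :=
  tsum_eq_sum fun n hn => gev_per_zero_off hsupp x₀ x hx n hn

theorem gev_per_hasSum {G : (ι → ℝ) → F} {M : ℝ} (hsupp : ∀ x, G x ≠ 0 → ∀ i, |x i| ≤ M) (x : ι → ℝ) :
    HasSum (fun n : ι → ℤ => G (fun i => x i - (n i : ℝ))) (gevPer G x) := by
  have hx : ∀ i, |x i - x i| ≤ 1 := fun i => by simp
  rw [gev_per_eq_sum hsupp x x hx]
  exact hasSum_sum_of_ne_finset_zero fun n hn => gev_per_zero_off hsupp x x hx n hn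

theorem gev_per_periodic (G : (ι → ℝ) → F) : GevPeriodic (gevPer G) := by
  intro x n
  unfold gevPer
  rw [← (Equiv.subRight n).tsum_eq (fun k : ι → ℤ => G (fun i => x i - (k i : ℝ)))]
  refine tsum_congr fun m => ?_
  congr 1
  funext i
  simp only [Equiv.subRight_apply, Pi.sub_apply]
  push_cast
  ring

theorem gev_per_eventually {G : (ι → ℝ) → F} {M : ℝ} (hsupp : ∀ x, G x ≠ 0 → ∀ i, |x i| ≤ M) (x₀ : ι → ℝ) :
    gevPer G =ᶠ[nhds x₀] fun x => ∑ n ∈ gevPerBox M x₀, G (x - fun i => (n i : ℝ)) := by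
  filter_upwards [Metric.ball_mem_nhds x₀ one_pos] with x hx
  refine gev_per_eq_sum hsupp x₀ x fun i => ?_
  rw [← Real.dist_eq]
  exact ((dist_le_pi_dist x x₀ i).trans_lt hx).le

theorem gev_per_contDiff {G : (ι → ℝ) → F} {M : ℝ} (hs : ContDiff ℝ ∞ G) (hsupp : ∀ x, G x ≠ 0 → ∀ i, |x i| ≤ M) :
    ContDiff ℝ ∞ (gevPer G) := by
  rw [contDiff_iff_contDiffAt]
  intro x₀
  refine ContDiffAt.congr_of_eventuallyEq ?_ (gev_per_eventually hsupp x₀)
  exact (ContDiff.sum fun n _ => hs.comp (contDiff_id.sub contDiff_const)).contDiffAt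

omit [Fintype ι] in
theorem gev_card_Icc_le {M : ℝ} (hM : 0 ≤ M) (x : ℝ) : ((Finset.Icc ⌈x - M⌉ ⌊x + M⌋).card : ℝ) ≤ 2 * M + 1 := by
  rw [Int.card_Icc]
  by_cases h : 0 ≤ ⌊x + M⌋ + 1 - ⌈x - M⌉
  · have h1 : (((⌊x + M⌋ + 1 - ⌈x - M⌉).toNat : ℤ) : ℝ) = ((⌊x + M⌋ + 1 - ⌈x - M⌉ : ℤ) : ℝ) := by
      rw [Int.toNat_of_nonneg h]
    have h2 : (((⌊x + M⌋ + 1 - ⌈x - M⌉).toNat : ℤ) : ℝ) = ((⌊x + M⌋ + 1 - ⌈x - M⌉).toNat : ℝ) := by
      push_cast; rfl
    rw [← h2, h1]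
    push_cast
    have a := Int.floor_le (x + M)
    have b := Int.le_ceil (x - M)
    linarith
  · have : (⌊x + M⌋ + 1 - ⌈x - M⌉).toNat = 0 := Int.toNat_of_nonpos (by omega)
    rw [this]
    simp only [Nat.cast_zero]
    linarith

/-- number of lattice points in a cube of half-side `M` -/
theorem gev_card_lattice_le {M : ℝ} (hM : 0 ≤ M) (x : ι → ℝ) (T : Finset (ι → ℤ)) (hT : ∀ n ∈ T, ∀ i, |x i - (n i : ℝ)| ≤ M) :
    (T.card : ℝ) ≤ (2 * M + 1) ^ Fintype.card ι := by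
  classical
  have hsub : T ⊆ Fintype.piFinset fun i => Finset.Icc ⌈x i - M⌉ ⌊x i + M⌋ := by
    intro n hn
    rw [Fintype.mem_piFinset]
    intro i
    have h1 := abs_le.1 (hT n hn i)
    rw [Finset.mem_Icc]
    exact ⟨Int.ceil_le.2 (by linarith [h1.2]), Int.le_floor.2 (by linarith [h1.1])⟩
  have h1 : (T.card : ℝ) ≤ ((Fintype.piFinset fun i => Finset.Icc ⌈x i - M⌉ ⌊x i + M⌋).card : ℝ) := by
    exact_mod_cast Finset.card_le_card hsub
  refine h1.trans ?_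
  rw [Fintype.card_piFinset]
  push_cast
  calc ∏ i, ((Finset.Icc ⌈x i - M⌉ ⌊x i + M⌋).card : ℝ) ≤ ∏ _i : ι, (2 * M + 1) :=
        Finset.prod_le_prod (fun _ _ => Nat.cast_nonneg _) fun i _ => gev_card_Icc_le hM (x i)
    _ = (2 * M + 1) ^ Fintype.card ι := by rw [Finset.prod_const, Finset.card_univ]

/-- derivative bounds of any shape pass to the periodisation with the factor `(2M+1)^card ι` -/
theorem gev_per_iteratedFDeriv_le {G : (ι → ℝ) → F} {M : ℝ} (hM : 0 ≤ M) (hs : ContDiff ℝ ∞ G)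
    (hsupp : ∀ x, G x ≠ 0 → ∀ i, |x i| ≤ M) (m : ℕ) {K : ℝ} (hK : ∀ x, ‖iteratedFDeriv ℝ m G x‖ ≤ K) (x : ι → ℝ) :
    ‖iteratedFDeriv ℝ m (gevPer G) x‖ ≤ (2 * M + 1) ^ Fintype.card ι * K := by
  classical
  have hK0 : 0 ≤ K := (norm_nonneg _).trans (hK x)
  have hclosed : IsClosed {y : ι → ℝ | ∀ i, |y i| ≤ M} := by
    rw [Set.ofPred_forall]
    exact isClosed_iInter fun i => isClosed_le (continuous_abs.comp (continuous_apply i)) continuous_const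
  rw [(Filter.EventuallyEq.iteratedFDeriv ℝ (gev_per_eventually hsupp x) m).eq_of_nhds,
    iteratedFDeriv_fun_sum_apply (f := fun (n : ι → ℤ) (z : ι → ℝ) => G (z - fun i => (n i : ℝ))) (fun n _ =>
      ((hs.comp (contDiff_id.sub contDiff_const)).of_le (by exact_mod_cast le_top)).contDiffAt)]
  simp only [iteratedFDeriv_comp_sub]
  set T := (gevPerBox M x).filter fun n => ∀ i, |x i - (n i : ℝ)| ≤ M with hT
  have e1 : ∑ n ∈ gevPerBox M x, iteratedFDeriv ℝ m G (x - fun i => (n i : ℝ))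
      = ∑ n ∈ T, iteratedFDeriv ℝ m G (x - fun i => (n i : ℝ)) := by
    refine (Finset.sum_subset (Finset.filter_subset _ _) fun n hn hnT => ?_).symm
    refine gev_iteratedFDeriv_eq_zero hclosed hsupp (fun hmem => hnT ?_) m
    rw [Finset.mem_filter]
    exact ⟨hn, hmem⟩
  rw [e1]
  calc ‖∑ n ∈ T, iteratedFDeriv ℝ m G (x - fun i => (n i : ℝ))‖
      ≤ ∑ n ∈ T, ‖iteratedFDeriv ℝ m G (x - fun i => (n i : ℝ))‖ := norm_sum_le _ _
    _ ≤ ∑ _n ∈ T, K := Finset.sum_le_sum fun n _ => hK _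
    _ = (T.card : ℝ) * K := by rw [Finset.sum_const, nsmul_eq_mul]
    _ ≤ (2 * M + 1) ^ Fintype.card ι * K :=
        mul_le_mul_of_nonneg_right
          (gev_card_lattice_le hM x T fun n hn => (Finset.mem_filter.1 hn).2) hK0

theorem gev_per {s : ℕ} {B A M : ℝ} {G : (ι → ℝ) → F} (hM : 0 ≤ M) (hG : Gev s B A G)
    (hsupp : ∀ x, G x ≠ 0 → ∀ i, |x i| ≤ M) : Gev s ((2 * M + 1) ^ Fintype.card ι * B) A (gevPer G) := by
  refine ⟨gev_per_contDiff hG.smooth hsupp, fun x _ n => ?_⟩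
  refine (gev_per_iteratedFDeriv_le hM hG.smooth hsupp n (fun y => hG.bound y (Set.mem_univ y) n) x).trans
    (le_of_eq ?_)
  ring

end

end Claimed.Agent.R258
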