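/-
Row 258, block [GEV] (architect helper252).  FILE Quad: polynomial phases of degree ≤ 2 with SHARP constants.
`GevQuad D₁ D₂ Q S`: `Q` smooth, `‖DQ‖ ≤ D₁`, `‖D²Q‖ ≤ D₂` on `S`, `D^n Q = 0` on `S` for `n ≥ 3`.
Closed under sums and constant multiples; contains constants, continuous linear forms `(K, 0)` and products of two continuous linear forms on a ball
`(2 K₁ K₂ M, 2 K₁ K₂)`.   `gev_ee_quad`: `D₁ ≤ D`, `D₂ ≤ D²` ⟹ `GevOn 1 1 (2π D) (ee ∘ Q) S`.
-/
import Claimed.Agent.R258.Pack021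

set_option autoImplicit false
open scoped ContDiff

namespace Claimed.Agent.R258

/-- polynomial phases of degree `≤ 2` -/
structure GevQuad {E : Type*} [NormedAddCommGroup E] [NormedSpace ℝ E] (D₁ D₂ : ℝ) (Q : E → ℝ) (S : Set E) : Prop where
  smooth : ContDiff ℝ ∞ Q
  one : ∀ x ∈ S, ‖iteratedFDeriv ℝ 1 Q x‖ ≤ D₁
  two : ∀ x ∈ S, ‖iteratedFDeriv ℝ 2 Q x‖ ≤ D₂
  high : ∀ x ∈ S, ∀ n : ℕ, 3 ≤ n → iteratedFDeriv ℝ n Q x = 0

section
variable {E F : Type*} [NormedAddCommGroup E] [NormedSpace ℝ E] [NormedAddCommGroup F] [NormedSpace ℝ F]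

theorem gev_clm_iter_one (L : E →L[ℝ] F) (x : E) : ‖iteratedFDeriv ℝ 1 (fun x => L x) x‖ = ‖L‖ := by
  rw [norm_iteratedFDeriv_one]
  have : fderiv ℝ (fun x => L x) x = L := L.fderiv
  rw [this]

theorem gev_clm_iter_zero (L : E →L[ℝ] F) {n : ℕ} (hn : 2 ≤ n) (x : E) : iteratedFDeriv ℝ n (fun x => L x) x = 0 := by
  obtain ⟨k, rfl⟩ := Nat.exists_eq_add_of_le hn
  rw [← norm_eq_zero]
  have e : 2 + k = (k + 1) + 1 := by ring
  rw [e, ← norm_iteratedFDeriv_fderiv]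
  have : fderiv ℝ (fun x => L x) = fun _ => L := funext fun y => L.fderiv
  rw [this, iteratedFDeriv_const_of_ne (Nat.succ_ne_zero k)]
  simp

theorem gev_quad_mono {D₁ D₂ D₁' D₂' : ℝ} {Q : E → ℝ} {S S' : Set E} (h : GevQuad D₁ D₂ Q S) (h₁ : D₁ ≤ D₁')
    (h₂ : D₂ ≤ D₂') (hS : S' ⊆ S) : GevQuad D₁' D₂' Q S' :=
  ⟨h.smooth, fun x hx => (h.one x (hS hx)).trans h₁, fun x hx => (h.two x (hS hx)).trans h₂,
    fun x hx n hn => h.high x (hS hx) n hn⟩

theorem gev_quad_congr {D₁ D₂ : ℝ} {Q Q' : E → ℝ} {S : Set E} (h : GevQuad D₁ D₂ Q S) (hQ : ∀ x, Q' x = Q x) :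
    GevQuad D₁ D₂ Q' S := by
  have : Q' = Q := funext hQ
  rw [this]; exact h

theorem gev_quad_const (c : ℝ) (S : Set E) : GevQuad 0 0 (fun _ : E => c) S := by
  refine ⟨contDiff_const, fun x _ => ?_, fun x _ => ?_, fun x _ n hn => ?_⟩
  · rw [iteratedFDeriv_const_of_ne (by norm_num)]; simp
  · rw [iteratedFDeriv_const_of_ne (by norm_num)]; simp
  · rw [iteratedFDeriv_const_of_ne (by omega)]; rfl

theorem gev_quad_clm {K : ℝ} (L : E →L[ℝ] ℝ) (hK : ‖L‖ ≤ K) (S : Set E) : GevQuad K 0 (fun x => L x) S := by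
  refine ⟨L.contDiff, fun x _ => ?_, fun x _ => ?_, fun x _ n hn => ?_⟩
  · rw [gev_clm_iter_one]; exact hK
  · rw [gev_clm_iter_zero L (le_refl 2)]; simp
  · exact gev_clm_iter_zero L (by omega) x

theorem gev_quad_add {D₁ D₂ D₁' D₂' : ℝ} {Q Q' : E → ℝ} {S : Set E} (h : GevQuad D₁ D₂ Q S) (h' : GevQuad D₁' D₂' Q' S) :
    GevQuad (D₁ + D₁') (D₂ + D₂') (fun x => Q x + Q' x) S := by
  have e : ∀ (n : ℕ) (x : E),
      iteratedFDeriv ℝ n (fun x => Q x + Q' x) x = iteratedFDeriv ℝ n Q x + iteratedFDeriv ℝ n Q' x := fun n x =>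
    iteratedFDeriv_add_apply ((h.smooth.of_le (by exact_mod_cast le_top)).contDiffAt)
      ((h'.smooth.of_le (by exact_mod_cast le_top)).contDiffAt)
  refine ⟨h.smooth.add h'.smooth, fun x hx => ?_, fun x hx => ?_, fun x hx n hn => ?_⟩
  · rw [e]; exact (norm_add_le _ _).trans (add_le_add (h.one x hx) (h'.one x hx))
  · rw [e]; exact (norm_add_le _ _).trans (add_le_add (h.two x hx) (h'.two x hx))
  · rw [e, h.high x hx n hn, h'.high x hx n hn, add_zero]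

theorem gev_quad_sum {ι : Type*} (t : Finset ι) {D₁ D₂ : ι → ℝ} {Q : ι → E → ℝ} {S : Set E}
    (h : ∀ i ∈ t, GevQuad (D₁ i) (D₂ i) (Q i) S) :
    GevQuad (∑ i ∈ t, D₁ i) (∑ i ∈ t, D₂ i) (fun x => ∑ i ∈ t, Q i x) S := by
  classical
  induction t using Finset.induction_on with
  | empty => simpa using gev_quad_const (0 : ℝ) S
  | insert a t ha ih =>
    have h1 := ih (fun i hi => h i (Finset.mem_insert_of_mem hi))
    have h2 := gev_quad_add (h a (Finset.mem_insert_self a t)) h1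
    simp only [Finset.sum_insert ha]
    exact h2

theorem gev_quad_const_mul {D₁ D₂ : ℝ} {Q : E → ℝ} {S : Set E} (c : ℝ) (h : GevQuad D₁ D₂ Q S) :
    GevQuad (|c| * D₁) (|c| * D₂) (fun x => c * Q x) S := by
  have e : ∀ (n : ℕ) (x : E), iteratedFDeriv ℝ n (fun x => c * Q x) x = c • iteratedFDeriv ℝ n Q x := fun n x =>
    iteratedFDeriv_const_smul_apply (a := c) ((h.smooth.of_le (by exact_mod_cast le_top)).contDiffAt)
  refine ⟨contDiff_const.mul h.smooth, fun x hx => ?_, fun x hx => ?_, fun x hx n hn => ?_⟩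
  · rw [e, norm_smul, Real.norm_eq_abs]; exact mul_le_mul_of_nonneg_left (h.one x hx) (abs_nonneg c)
  · rw [e, norm_smul, Real.norm_eq_abs]; exact mul_le_mul_of_nonneg_left (h.two x hx) (abs_nonneg c)
  · rw [e, h.high x hx n hn, smul_zero]

/-- product of two continuous linear forms on a ball -/
theorem gev_quad_mul_clm {K₁ K₂ M : ℝ} (L₁ L₂ : E →L[ℝ] ℝ) (h₁ : ‖L₁‖ ≤ K₁) (h₂ : ‖L₂‖ ≤ K₂) {S : Set E}
    (hS : ∀ x ∈ S, ‖x‖ ≤ M) : GevQuad (2 * K₁ * K₂ * M) (2 * K₁ * K₂) (fun x => L₁ x * L₂ x) S := by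
  have hK₁ : 0 ≤ K₁ := (norm_nonneg _).trans h₁
  have hK₂ : 0 ≤ K₂ := (norm_nonneg _).trans h₂
  have hl : ∀ (n : ℕ) (x : E), ‖iteratedFDeriv ℝ n (fun x => L₁ x * L₂ x) x‖ ≤
      ∑ i ∈ Finset.range (n + 1), (n.choose i : ℝ) * ‖iteratedFDeriv ℝ i (fun x => L₁ x) x‖ *
        ‖iteratedFDeriv ℝ (n - i) (fun x => L₂ x) x‖ := fun n x =>
    norm_iteratedFDeriv_mul_le (N := ∞) L₁.contDiff L₂.contDiff x (by exact_mod_cast le_top)
  refine ⟨L₁.contDiff.mul L₂.contDiff, fun x hx => ?_, fun x hx => ?_, fun x hx n hn => ?_⟩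
  · refine (hl 1 x).trans ?_
    have hM := hS x hx
    have a1 : ‖L₁ x‖ ≤ K₁ * M := (L₁.le_opNorm x).trans (mul_le_mul h₁ hM (norm_nonneg _) hK₁)
    have a2 : ‖L₂ x‖ ≤ K₂ * M := (L₂.le_opNorm x).trans (mul_le_mul h₂ hM (norm_nonneg _) hK₂)
    simp only [Finset.sum_range_succ, Finset.sum_range_zero, zero_add, Nat.choose_zero_right, Nat.choose_self,
      Nat.cast_one, one_mul, Nat.sub_zero, Nat.reduceSub, norm_iteratedFDeriv_zero, gev_clm_iter_one]
    have b1 : ‖L₁ x‖ * ‖L₂‖ ≤ (K₁ * M) * K₂ := mul_le_mul a1 h₂ (norm_nonneg _) ((norm_nonneg _).trans a1)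
    have b2 : ‖L₁‖ * ‖L₂ x‖ ≤ K₁ * (K₂ * M) := mul_le_mul h₁ a2 (norm_nonneg _) hK₁
    linarith
  · refine (hl 2 x).trans ?_
    simp only [Finset.sum_range_succ, Finset.sum_range_zero, zero_add, Nat.sub_zero, Nat.reduceSub,
      gev_clm_iter_zero L₁ (le_refl 2), gev_clm_iter_zero L₂ (le_refl 2), norm_zero, mul_zero, zero_mul, add_zero,
      gev_clm_iter_one, Nat.choose_one_right]
    have b : ‖L₁‖ * ‖L₂‖ ≤ K₁ * K₂ := mul_le_mul h₁ h₂ (norm_nonneg _) hK₁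
    push_cast
    linarith
  · rw [← norm_eq_zero]
    refine le_antisymm ((hl n x).trans (le_of_eq ?_)) (norm_nonneg _)
    apply Finset.sum_eq_zero
    intro i hi
    have hi' : i ≤ n := Nat.lt_succ_iff.mp (Finset.mem_range.mp hi)
    by_cases h2 : 2 ≤ i
    · rw [gev_clm_iter_zero L₁ h2]; simp
    · rw [gev_clm_iter_zero L₂ (by omega : 2 ≤ n - i)]; simp

/-- **quadratic phases, sharp constants** -/
theorem gev_ee_quad {D₁ D₂ D : ℝ} {Q : E → ℝ} {S : Set E} (h : GevQuad D₁ D₂ Q S) (hD : 0 ≤ D) (h₁ : D₁ ≤ D)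
    (h₂ : D₂ ≤ D ^ 2) : GevOn 1 1 (2 * Real.pi * D) (fun x => ee (Q x)) S := by
  refine ⟨gev_ee_contDiff.comp h.smooth, fun x hx m => ?_⟩
  have hpi : (1 : ℝ) ≤ 2 * Real.pi := by linarith [Real.pi_gt_three]
  have hC : ∀ i, i ≤ m → ‖iteratedFDeriv ℝ i ee (Q x)‖ ≤ (2 * Real.pi) ^ m := by
    intro i hi
    have := gev_ee.bound (Q x) (Set.mem_univ _) i
    simp only [pow_zero, mul_one, one_mul] at this
    exact this.trans (pow_le_pow_right₀ hpi hi)
  have hQ : ∀ i, 1 ≤ i → i ≤ m → ‖iteratedFDeriv ℝ i Q x‖ ≤ D ^ i := by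
    intro i hi _
    rcases i with _ | _ | _ | i
    · omega
    · rw [zero_add, pow_one]; exact (h.one x hx).trans h₁
    · exact (h.two x hx).trans h₂
    · rw [h.high x hx _ (by omega), norm_zero]; positivity
  have hh := norm_iteratedFDeriv_comp_le gev_ee_contDiff h.smooth (n := m) (by exact_mod_cast le_top) x hC hQ
  refine hh.trans (le_of_eq ?_)
  rw [mul_pow]; ring

end

section
variable {ι : Type*} [Fintype ι]

/-- the general polynomial of degree `≤ 2` on the cube `[-K,K]^ι` -/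
theorem gev_quad_poly (M : ι → ι → ℝ) (σ : ι → ℝ) (c K : ℝ) :
    GevQuad (2 * K * (∑ i, ∑ j, |M i j|) + ∑ i, |σ i|) (2 * ∑ i, ∑ j, |M i j|)
      (fun w : ι → ℝ => (∑ i, ∑ j, w i * M i j * w j) + (∑ i, σ i * w i) + c) {w | ∀ i, |w i| ≤ K} := by
  by_cases hne : ({w : ι → ℝ | ∀ i, |w i| ≤ K}).Nonempty
  swap
  · rw [Set.not_nonempty_iff_eq_empty] at hne
    rw [hne]
    refine ⟨?_, fun x hx => hx.elim, fun x hx => hx.elim, fun x hx => hx.elim⟩
    fun_prop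
  have hK : 0 ≤ K ∨ IsEmpty ι := by
    obtain ⟨w, hw⟩ := hne
    by_cases hι : IsEmpty ι
    · exact Or.inr hι
    · rw [not_isEmpty_iff] at hι
      obtain ⟨i⟩ := hι
      exact Or.inl ((abs_nonneg _).trans (hw i))
  have hp : ∀ i : ι, ‖ContinuousLinearMap.proj (R := ℝ) (φ := fun _ : ι => ℝ) i‖ ≤ 1 := fun i =>
    ContinuousLinearMap.opNorm_le_bound _ zero_le_one (fun x => by simpa using norm_le_pi_norm x i)
  have hS : ∀ x ∈ {w : ι → ℝ | ∀ i, |w i| ≤ K}, ‖x‖ ≤ max K 0 := fun x hx =>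
    (pi_norm_le_iff_of_nonneg (le_max_right _ _)).2 (fun j => by
      rw [Real.norm_eq_abs]; exact (hx j).trans (le_max_left _ _))
  have q1 := gev_quad_sum Finset.univ (fun i _ => gev_quad_sum Finset.univ (fun j _ =>
    gev_quad_const_mul (M i j) (gev_quad_mul_clm _ _ (hp i) (hp j) hS)))
  have q2 := gev_quad_sum Finset.univ (fun i _ => gev_quad_const_mul (σ i)
    (gev_quad_clm _ (hp i) {w : ι → ℝ | ∀ i, |w i| ≤ K}))
  have q3 := gev_quad_add (gev_quad_add q1 q2) (gev_quad_const c _)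
  refine gev_quad_mono (gev_quad_congr q3 fun w => ?_) (le_of_eq ?_) (le_of_eq ?_) (le_refl _)
  · simp only [ContinuousLinearMap.proj_apply]
    congr 2
    refine Finset.sum_congr rfl fun i _ => Finset.sum_congr rfl fun j _ => ?_
    ring
  · rcases hK with hK | hι
    · rw [max_eq_left hK]
      simp only [mul_one, add_zero, Finset.mul_sum]
      congr 1
      refine Finset.sum_congr rfl fun i _ => Finset.sum_congr rfl fun j _ => ?_
      ring
    · simp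
  · simp only [mul_one, mul_zero, add_zero, Finset.mul_sum, Finset.sum_const_zero]
    refine Finset.sum_congr rfl fun i _ => Finset.sum_congr rfl fun j _ => ?_
    ring

end

end Claimed.Agent.R258
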