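/-
Row 258, block [GEV] (architect helper252).  FILE S2: the shapes requested by Sec. 2 (helper145, msg 10308: G1-G5).
  G1 = `gev_S2_step`            (R = gevStepAB (1/4) (5/12), rate 36000)
  G2 = the calculus (`gev_add`, `gev_const_smul`, `gev_mul`, `gev_deriv`, `gev_iteratedDeriv`, `gev_comp_affine_real`, `gev_id` + `gev_pow` + `gev_of_closed` for `x^k f`),
       with `gev_of_GB_real` / `gev_to_GB_real` to enter and leave the class
  G3 = `gev_avg`                (parameter average)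
  G4 = `gev_tensor` + `gev_ofReal` + `gev_to_GB`;  `gev_S2_tensor` is the packaged form
  G5 = `gev_rescale2_le`, `gev_rescale2`
PLANS.
* `gev_avg`: put `F_n S = ∫ b in 1..2, b^(n-4) * f^(n) (b S)` (zpow).  `HasDerivAt F_n (F_{n+1} S) S` by
  `intervalIntegral.hasDerivAt_integral_of_dominated_loc_of_deriv_le` (the `S`-derivative of the integrand is `b^(n-4) * b * f^(n+1)(b S)`, bounded by
  `2^(n+1) * B A^(n+1) (n+1)!^s`, continuous in `b`).  Induction: `iteratedDeriv n F_0 = F_n` (`iteratedDeriv_succ`), smoothness by `contDiff_of_differentiable_iteratedDeriv`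
  (or `contDiff_infty_iff_deriv` + induction).  Bound: `|b^(n-4)| ≤ 2^n` on `[1,2]`, interval of length 1 (`intervalIntegral.norm_integral_le_of_norm_le_const`).
* `gev_rescale2_le`: `p ↦ ((p.1 - l)/r, p.2/r) = r⁻¹ • p + (-l/r, 0)`; as in `gevw_comp_affine`.
-/
import Claimed.Agent.R258.Gev.Conv
import Claimed.Agent.R258.Pack021

set_option autoImplicit false
open scoped ContDiff

namespace Claimed.Agent.R258

/-- G1 -/
theorem gev_S2_step : ∃ (R : ℝ → ℝ) (C : ℝ), 1 ≤ C ∧ ContDiff ℝ ∞ R ∧ (∀ x, x ≤ 1 / 4 → R x = 0) ∧ (∀ x, 5 / 12 ≤ x → R x = 1) ∧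
    Monotone R ∧ Gev 2 1 36000 R ∧
    ∀ (n : ℕ) (x : ℝ), |iteratedDeriv n R x| ≤ (C * ((n : ℝ) + 2)) ^ (C * ((n : ℝ) + 2)) := by
  have hab : (1 / 4 : ℝ) < 5 / 12 := by norm_num
  have hg : Gev 2 1 36000 (gevStepAB (1 / 4) (5 / 12)) := by
    have := gev_stepAB hab
    norm_num at this
    exact this
  refine ⟨gevStepAB (1 / 4) (5 / 12), 36000, by norm_num, hg.smooth, fun x hx => gev_stepAB_zero hab hx,
    fun x hx => gev_stepAB_one hab hx, gev_stepAB_mono hab, hg, fun n x => ?_⟩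
  exact gev_to_GB_real hg (by norm_num) (by norm_num) (by norm_num) le_rfl (by norm_num) (Set.mem_univ x) n

/-- `b^(k-4) ≤ 2^k` on `[1,2]` -/
theorem gev_zpow_le {b : ℝ} (h1 : 1 ≤ b) (h2 : b ≤ 2) (k : ℕ) : |b ^ ((k : ℤ) - 4)| ≤ 2 ^ k := by
  have hb : 0 < b := by linarith
  rw [abs_of_pos (zpow_pos hb _), zpow_sub₀ hb.ne', zpow_natCast]
  have h4 : (1 : ℝ) ≤ b ^ (4 : ℤ) := by
    rw [show (4 : ℤ) = ((4 : ℕ) : ℤ) by norm_num, zpow_natCast]
    exact one_le_pow₀ h1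
  calc b ^ k / b ^ (4 : ℤ) ≤ b ^ k := div_le_self (by positivity) h4
    _ ≤ 2 ^ k := pow_le_pow_left₀ hb.le h2 k

/-- the `n`-th derivative of the parameter average -/
noncomputable def gevAvg (f : ℝ → ℝ) (n : ℕ) (S : ℝ) : ℝ :=
  ∫ b in (1 : ℝ)..2, b ^ ((n : ℤ) - 4) * iteratedDeriv n f (b * S)

theorem gev_iter_contDiff {f : ℝ → ℝ} (hf : ContDiff ℝ ∞ f) (k : ℕ) : ContDiff ℝ ∞ (iteratedDeriv k f) := by
  rw [iteratedDeriv_eq_iterate]
  exact hf.iterate_deriv k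

theorem gev_avg_contOn {f : ℝ → ℝ} (hf : ContDiff ℝ ∞ f) (n : ℕ) (S : ℝ) :
    ContinuousOn (fun b : ℝ => b ^ ((n : ℤ) - 4) * iteratedDeriv n f (b * S)) (Set.uIcc 1 2) := by
  apply ContinuousOn.mul
  · refine continuousOn_id.zpow₀ _ fun a ha => Or.inl ?_
    rw [Set.uIcc_of_le (by norm_num)] at ha
    have := ha.1
    simp only [id]
    linarith
  · exact ((gev_iter_contDiff hf n).continuous.comp (by fun_prop)).continuousOn

theorem gev_avg_hasDerivAt {s : ℕ} {B A : ℝ} {f : ℝ → ℝ} (hf : Gev s B A f) (n : ℕ) (S : ℝ) :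
    HasDerivAt (gevAvg f n) (gevAvg f (n + 1) S) S := by
  have hsm := hf.smooth
  have hmeas : ∀ (m : ℕ) (x : ℝ), MeasureTheory.AEStronglyMeasurable
      (fun b : ℝ => b ^ ((m : ℤ) - 4) * iteratedDeriv m f (b * x))
      (MeasureTheory.volume.restrict (Set.uIoc 1 2)) := fun m x =>
    ((gev_avg_contOn hsm m x).mono Set.uIoc_subset_uIcc).aestronglyMeasurable measurableSet_uIoc
  have key := intervalIntegral.hasDerivAt_integral_of_dominated_loc_of_deriv_le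
    (μ := MeasureTheory.volume) (a := 1) (b := 2)
    (F := fun (x b : ℝ) => b ^ ((n : ℤ) - 4) * iteratedDeriv n f (b * x))
    (F' := fun (x b : ℝ) => b ^ (((n + 1 : ℕ) : ℤ) - 4) * iteratedDeriv (n + 1) f (b * x))
    (x₀ := S) (s := Set.univ)
    (bound := fun _ => 2 ^ (n + 1) * (B * A ^ (n + 1) * ((n + 1).factorial : ℝ) ^ s))
    Filter.univ_mem (Filter.Eventually.of_forall fun x => hmeas n x)
    (gev_avg_contOn hsm n S).intervalIntegrable (hmeas (n + 1) S)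
    (Filter.Eventually.of_forall fun b hb x _ => ?_) intervalIntegrable_const
    (Filter.Eventually.of_forall fun b hb x _ => ?_)
  · exact key.2
  · rw [Set.uIoc_of_le (by norm_num)] at hb
    rw [norm_mul, Real.norm_eq_abs]
    exact mul_le_mul (gev_zpow_le hb.1.le hb.2 (n + 1)) (gev_iteratedDeriv_le hf (Set.mem_univ _) (n + 1))
      (norm_nonneg _) (by positivity)
  · rw [Set.uIoc_of_le (by norm_num)] at hb
    have hb0 : b ≠ 0 := by have := hb.1; intro h0; rw [h0] at this; linarith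
    have h1 : HasDerivAt (iteratedDeriv n f) (iteratedDeriv (n + 1) f (b * x)) (b * x) := by
      rw [iteratedDeriv_succ]
      exact ((gev_iter_contDiff hsm n).differentiable (by simp)).differentiableAt.hasDerivAt
    have h2 : HasDerivAt (fun x : ℝ => b * x) b x := by
      simpa using (hasDerivAt_id x).const_mul b
    have h3 := (HasDerivAt.comp (h₂ := iteratedDeriv n f) (h := fun x : ℝ => b * x) x h1 h2).const_mul
      (b ^ ((n : ℤ) - 4))
    refine h3.congr_deriv ?_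
    have e : (((n + 1 : ℕ) : ℤ) - 4) = ((n : ℤ) - 4) + 1 := by push_cast; ring
    rw [e, zpow_add_one₀ hb0]
    ring

theorem gev_avg_iter {s : ℕ} {B A : ℝ} {f : ℝ → ℝ} (hf : Gev s B A f) (n : ℕ) :
    iteratedDeriv n (fun S : ℝ => ∫ b in (1 : ℝ)..2, b ^ (-4 : ℤ) * f (b * S)) = gevAvg f n := by
  induction n with
  | zero =>
    funext S
    simp [gevAvg]
  | succ k ih =>
    rw [iteratedDeriv_succ, ih]
    funext S
    exact (gev_avg_hasDerivAt hf k S).deriv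

/-- G3: the parameter average `F(S) = ∫_1^2 b^(-4) f(b S) db` -/
theorem gev_avg {s : ℕ} {B A : ℝ} {f : ℝ → ℝ} (hA : 0 ≤ A) (hf : Gev s B A f) :
    Gev s B (2 * A) (fun S : ℝ => ∫ b in (1 : ℝ)..2, b ^ (-4 : ℤ) * f (b * S)) ∧
    ∀ (n : ℕ) (S : ℝ), iteratedDeriv n (fun S : ℝ => ∫ b in (1 : ℝ)..2, b ^ (-4 : ℤ) * f (b * S)) S
      = ∫ b in (1 : ℝ)..2, b ^ ((n : ℤ) - 4) * iteratedDeriv n f (b * S) := by
  refine ⟨gev_of_iteratedDeriv ?_ fun S _ n => ?_, fun n S => by rw [gev_avg_iter hf n]; rfl⟩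
  · refine contDiff_of_differentiable_iteratedDeriv (n := ⊤) fun m _ => ?_
    rw [gev_avg_iter hf m]
    exact fun S => (gev_avg_hasDerivAt hf m S).differentiableAt
  · rw [gev_avg_iter hf n]
    have h := intervalIntegral.norm_integral_le_of_norm_le_const (a := 1) (b := 2)
      (f := fun b : ℝ => b ^ ((n : ℤ) - 4) * iteratedDeriv n f (b * S))
      (C := 2 ^ n * (B * A ^ n * (n.factorial : ℝ) ^ s)) fun b hb => by
        rw [Set.uIoc_of_le (by norm_num)] at hb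
        rw [norm_mul, Real.norm_eq_abs]
        exact mul_le_mul (gev_zpow_le hb.1.le hb.2 n) (gev_iteratedDeriv_le hf (Set.mem_univ _) n)
          (norm_nonneg _) (by positivity)
    refine h.trans (le_of_eq ?_)
    rw [mul_pow]
    norm_num
    ring

/-- G4, packaged: tensor product of two real functions with bounds of shape (c) -/
theorem gev_S2_tensor {Ca Cb : ℝ} {a b : ℝ → ℝ} (hCa : 1 ≤ Ca) (hCb : 1 ≤ Cb) (ha : ContDiff ℝ ∞ a) (hb : ContDiff ℝ ∞ b)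
    (hga : ∀ (n : ℕ) (x : ℝ), |iteratedDeriv n a x| ≤ (Ca * ((n : ℝ) + 2)) ^ (Ca * ((n : ℝ) + 2)))
    (hgb : ∀ (n : ℕ) (x : ℝ), |iteratedDeriv n b x| ≤ (Cb * ((n : ℝ) + 2)) ^ (Cb * ((n : ℝ) + 2))) :
    ∃ (s : ℕ) (B A : ℝ), 0 ≤ A ∧ Gev s B A (fun p : ℝ × ℝ => ((a p.1 * b p.2 : ℝ) : ℂ)) := by
  have h1 := gev_of_GB_real hCa ha hga
  have h2 := gev_of_GB_real hCb hb hgb
  have hA1 : (0 : ℝ) ≤ (12 * Ca) ^ ⌈Ca⌉₊ := by positivity
  have hA2 : (0 : ℝ) ≤ (12 * Cb) ^ ⌈Cb⌉₊ := by positivity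
  have h1' := gev_mono h1 (le_max_left ⌈Ca⌉₊ ⌈Cb⌉₊) le_rfl hA1 le_rfl (Set.Subset.refl _)
  have h2' := gev_mono h2 (le_max_right ⌈Ca⌉₊ ⌈Cb⌉₊) le_rfl hA2 le_rfl (Set.Subset.refl _)
  have g1 := gev_mono_set (gev_comp_fst (E' := ℝ) hA1 h1') (S' := Set.univ) (fun _ _ => Set.mem_univ _)
  have g2 := gev_mono_set (gev_comp_snd (E := ℝ) hA2 h2') (S' := Set.univ) (fun _ _ => Set.mem_univ _)
  exact ⟨_, _, _, add_nonneg hA1 hA2, gev_ofReal (gev_mul hA1 hA2 g1 g2)⟩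

section
variable {F : Type*} [NormedAddCommGroup F] [NormedSpace ℝ F]

theorem gev_rescale2_eq (W : ℝ × ℝ → F) (r l : ℝ) :
    (fun p : ℝ × ℝ => W ((p.1 - l) / r, p.2 / r)) = fun p : ℝ × ℝ =>
      (W ∘ (r⁻¹ • ContinuousLinearMap.id ℝ (ℝ × ℝ))) (p - ((l, 0) : ℝ × ℝ)) := by
  funext p
  simp only [Function.comp_apply, FunLike.coe_smul, Pi.smul_apply, ContinuousLinearMap.id_apply]
  congr 1
  ext
  · simp [div_eq_inv_mul]
  · simp [div_eq_inv_mul]

theorem gev_rescale2_norm {r : ℝ} (hr : 0 < r) : ‖r⁻¹ • ContinuousLinearMap.id ℝ (ℝ × ℝ)‖ ≤ r⁻¹ := by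
  refine ContinuousLinearMap.opNorm_le_bound _ (inv_pos.2 hr).le fun x => ?_
  simp only [FunLike.coe_smul, Pi.smul_apply, ContinuousLinearMap.id_apply]
  rw [norm_smul, Real.norm_eq_abs, abs_of_pos (inv_pos.2 hr)]

/-- G5 -/
theorem gev_rescale2_le {W : ℝ × ℝ → F} (hW : ContDiff ℝ ∞ W) {r : ℝ} (l : ℝ) (hr : 0 < r) (n : ℕ) {K : ℝ}
    (hK : ∀ p, ‖iteratedFDeriv ℝ n W p‖ ≤ K) (p : ℝ × ℝ) :
    ‖iteratedFDeriv ℝ n (fun p : ℝ × ℝ => W ((p.1 - l) / r, p.2 / r)) p‖ ≤ (r ^ n)⁻¹ * K := by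
  set g : ℝ × ℝ →L[ℝ] ℝ × ℝ := r⁻¹ • ContinuousLinearMap.id ℝ (ℝ × ℝ) with hg
  have hgn : ‖g‖ ≤ r⁻¹ := gev_rescale2_norm hr
  rw [gev_rescale2_eq, iteratedFDeriv_comp_sub,
    g.iteratedFDeriv_comp_right hW _ (i := n) (by exact_mod_cast le_top)]
  calc ‖(iteratedFDeriv ℝ n W (g (p - (l, 0)))).compContinuousLinearMap fun _ => g‖
      ≤ ‖iteratedFDeriv ℝ n W (g (p - (l, 0)))‖ * ∏ _i : Fin n, ‖g‖ :=
        ContinuousMultilinearMap.norm_compContinuousLinearMap_le _ _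
    _ ≤ K * (r⁻¹) ^ n := by
        rw [Finset.prod_const, Finset.card_univ, Fintype.card_fin]
        have e1 := hK (g (p - (l, 0)))
        have e2 : ‖g‖ ^ n ≤ (r⁻¹) ^ n := pow_le_pow_left₀ (norm_nonneg g) hgn n
        exact mul_le_mul e1 e2 (pow_nonneg (norm_nonneg _) n) ((norm_nonneg _).trans e1)
    _ = (r ^ n)⁻¹ * K := by rw [inv_pow, mul_comm]

theorem gev_rescale2 {s : ℕ} {B A : ℝ} {W : ℝ × ℝ → F} (hA : 0 ≤ A) (hW : Gev s B A W) {r : ℝ} (l : ℝ) (hr : 0 < r) :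
    Gev s B (A / r) (fun p : ℝ × ℝ => W ((p.1 - l) / r, p.2 / r)) := by
  refine ⟨?_, fun p _ n => ?_⟩
  · rw [gev_rescale2_eq]
    exact (hW.smooth.comp (r⁻¹ • ContinuousLinearMap.id ℝ (ℝ × ℝ)).contDiff).comp (contDiff_id.sub contDiff_const)
  · refine (gev_rescale2_le hW.smooth l hr n (fun q => hW.bound q (Set.mem_univ q) n) p).trans (le_of_eq ?_)
    rw [div_pow, div_eq_mul_inv]
    ring

end

end Claimed.Agent.R258
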