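/-
Row 258, block [GEV] (architect helper252).  FILE S6: the shapes requested by Sec. 6 (helper70, msg 10536: G1-G3).
  G1 = `gevPU` (file Cut): `gev_PU_nonneg`, `gev_PU_supp`, `gev_PU_hasSum`; packaged in `gev_S6_G1`.
  G2 = `gev_S6_G2`: the template amplitude `x ↦ gevPUd x * ee (s·x)`, `|s c| ≤ 1`, satisfies the clauses smooth/supp/deriv of `Chart.Cplx` for `H ≥ exp (d + 2)`.
  G3 = `gev_S6_G3`: periodisation in `l¹`.
PLANS.
* G2: `gev_ofReal gev_PUd : Gev 2 1 (12000 d)`, `gev_ee_lin s 0 : Gev 0 1 (2π ∑|s c|)`, `gev_mono` to order 2, `gev_mul`: `Gev 2 1 (12000 d + 2π d)`;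
  `12000 d + 2π d ≤ 12007 d ≤ exp (10 (d+2)) ≤ H^10` (`Real.add_one_le_exp`, `exp 20 ≥ 12007`...), `gev_to_chart`.
* G3: `G x = chi x * ee (s·x)`: `gev_of_chart`: `Gev 10 ((3H)^10) ((6H)^10) chi`; `gev_ee_lin`: rate `2π·5d ≤ 32 d`; product `Gev 10 ((3H)^10) ((6H)^10 + 32 d)`;
  `gev_per` with `M = H`: `P = gevPer G` is smooth, periodic, `‖D^m P‖ ≤ K_m = (2H+1)^d (3H)^10 ((6H)^10 + 32 d)^m m!^10`.
  `s4a_periodic_fourier` with `m = 2d`, `X = K_{2d}` (`K_0 ≤ K_{2d}`), `a = s4a_fc P`; `s4a_lat_weighted` with `M = 0`: `∑ ‖a‖ ≤ 4^d X`.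
  With `L = log H ≥ 2`, `d ≤ L`: `log (4^d X) ≤ 2L + L(L+2) + 10(L+2) + 2L(10L+20) + 40 L² ≤ 100 (1+L)²`, so `C = 100` works
  (`qpoly C x = exp (C (1+x)^C)`, `(1+L)^2 ≤ (1+L)^100` as rpow).
-/
import Claimed.Agent.R258.Gev.Conv
import Claimed.Agent.R258.Gev.Per
import Claimed.Agent.R258.S4a.Periodic
import Claimed.Agent.R258.Pack006

set_option autoImplicit false
open scoped ContDiff

namespace Claimed.Agent.R258

/-- G1 -/
theorem gev_S6_G1 : ContDiff ℝ ∞ gevPU ∧ (∀ x, 0 ≤ gevPU x) ∧ (∀ x, gevPU x ≤ 1) ∧ (∀ x, gevPU x ≠ 0 → |x| ≤ 1) ∧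
    ∀ x : ℝ, ∑' n : ℤ, gevPU (x - n) = 1 := by
  exact ⟨gev_PU.smooth, gev_PU_nonneg, gev_PU_le_one, fun x hx => (gev_PU_supp hx).le,
    fun x => (gev_PU_hasSum x).tsum_eq⟩

/-- G2 -/
theorem gev_S6_G2 {d : ℕ} (s : Fin d → ℝ) (hs : ∀ c, |s c| ≤ 1) {H : ℝ} (hH : Real.exp ((d : ℝ) + 2) ≤ H) :
    ContDiff ℝ ∞ (fun x : Fin d → ℝ => ((gevPUd x : ℝ) : ℂ) * ee (∑ c, s c * x c)) ∧
    (∀ x : Fin d → ℝ, ((gevPUd x : ℝ) : ℂ) * ee (∑ c, s c * x c) ≠ 0 → ∀ i, |x i| ≤ 1) ∧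
    (∀ x : Fin d → ℝ, ‖((gevPUd x : ℝ) : ℂ) * ee (∑ c, s c * x c)‖ ≤ 1) ∧
    ∀ (n : ℕ) (x : Fin d → ℝ),
      ‖iteratedFDeriv ℝ n (fun x : Fin d → ℝ => ((gevPUd x : ℝ) : ℂ) * ee (∑ c, s c * x c)) x‖
        ≤ H ^ (cGev * ((n : ℝ) + 1)) * ((n : ℝ) + 1) ^ (cGev * ((n : ℝ) + 1)) := by
  have hd0 : (0 : ℝ) ≤ d := Nat.cast_nonneg d
  have h1 : Gev 2 1 (12000 * (d : ℝ)) (fun x : Fin d → ℝ => ((gevPUd x : ℝ) : ℂ)) := by
    have := gev_ofReal (gev_PUd (ι := Fin d))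
    rwa [Fintype.card_fin] at this
  have hsum0 : 0 ≤ ∑ c, |s c| := Finset.sum_nonneg fun c _ => abs_nonneg _
  have hsum : ∑ c, |s c| ≤ d := by
    calc ∑ c, |s c| ≤ ∑ _c : Fin d, (1 : ℝ) := Finset.sum_le_sum fun c _ => hs c
      _ = d := by simp
  have h2 : Gev 2 1 (2 * Real.pi * ∑ c, |s c|) (fun x : Fin d → ℝ => ee (∑ c, s c * x c)) := by
    have := gev_mono (gev_ee_lin s 0) (by norm_num : 0 ≤ 2) (le_refl _) (by positivity) (le_refl _) (le_refl _)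
    exact gev_congr this fun x => by rw [add_zero]
  have h3 := gev_mul (by positivity) (by positivity) h1 h2
  rw [one_mul] at h3
  have hH1 : 1 ≤ H := le_trans (Real.one_le_exp (by positivity)) hH
  have hA : 12000 * (d : ℝ) + 2 * Real.pi * ∑ c, |s c| ≤ H ^ 10 := by
    have e1 : Real.exp ((d : ℝ) + 2) ^ 10 ≤ H ^ 10 := pow_le_pow_left₀ (Real.exp_pos _).le hH 10
    have e2 : Real.exp ((d : ℝ) + 2) ^ 10 = Real.exp 1 ^ 20 * Real.exp (10 * (d : ℝ)) := by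
      rw [← Real.exp_nat_mul, ← Real.exp_nat_mul, ← Real.exp_add]
      congr 1
      push_cast
      ring
    have e3 : (2 : ℝ) ^ 20 ≤ Real.exp 1 ^ 20 :=
      pow_le_pow_left₀ (by norm_num) (by have := Real.add_one_le_exp (1 : ℝ); linarith) 20
    have e4 : (d : ℝ) ≤ Real.exp (10 * (d : ℝ)) := by
      have := Real.add_one_le_exp (10 * (d : ℝ)); linarith
    have e5 : (2 : ℝ) ^ 20 * (d : ℝ) ≤ Real.exp 1 ^ 20 * Real.exp (10 * (d : ℝ)) :=
      mul_le_mul e3 e4 hd0 (by positivity)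
    have e6 : 2 * Real.pi * ∑ c, |s c| ≤ 7 * (d : ℝ) := by
      have hpi : 2 * Real.pi ≤ 7 := by linarith [Real.pi_lt_d2]
      exact mul_le_mul hpi hsum hsum0 (by norm_num)
    have e7 : (2 : ℝ) ^ 20 = 1048576 := by norm_num
    rw [e7] at e5
    linarith
  refine ⟨h3.smooth, fun x hx i => ?_, fun x => ?_, fun n x => ?_⟩
  · have : gevPUd x ≠ 0 := by
      intro h0
      apply hx
      rw [h0]; simp
    exact (gev_PUd_supp this i).le
  · rw [norm_mul, gev_ee_norm, mul_one, Complex.norm_real, Real.norm_eq_abs, abs_of_nonneg (gev_PUd_nonneg x)]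
    exact gev_PUd_le_one x
  · exact gev_to_chart h3 (by norm_num) hH1 (by positivity) hA (one_le_pow₀ hH1) (Set.mem_univ x) n

theorem gev_pow_le_exp {a t : ℝ} (ha : 0 ≤ a) (h : a ≤ Real.exp t) (n : ℕ) : a ^ n ≤ Real.exp (n * t) := by
  rw [Real.exp_nat_mul]
  exact pow_le_pow_left₀ ha h n

/-- the numerical part of G3 -/
theorem gev_S6_num {d : ℕ} {H σ : ℝ} (hH : Real.exp 2 ≤ H) (hd : (d : ℝ) ≤ Real.log H) (hσ0 : 0 ≤ σ) (hσ : σ ≤ 5 * d) :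
    4 ^ d * ((2 * H + 1) ^ d * (3 * H) ^ 10 * ((6 * H) ^ 10 + 2 * Real.pi * σ) ^ (2 * d) * ((2 * d).factorial : ℝ) ^ 10)
      ≤ qpoly 100 (Real.log H) := by
  have hd0 : (0 : ℝ) ≤ d := Nat.cast_nonneg d
  have hH1 : 1 ≤ H := le_trans (Real.one_le_exp (by norm_num)) hH
  have hH0 : 0 < H := by linarith
  set L := Real.log H with hL
  have hHL : H = Real.exp L := (Real.exp_log hH0).symm
  have hL2 : 2 ≤ L := by
    rw [hL, Real.le_log_iff_exp_le hH0]; exact hH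
  have he1 : (2 : ℝ) ≤ Real.exp 1 := by have := Real.add_one_le_exp (1 : ℝ); linarith
  have he2 : (7 : ℝ) ≤ Real.exp 2 := by
    have h27 : (2.7 : ℝ) ≤ Real.exp 1 := by have := Real.exp_one_gt_d9; linarith
    have : Real.exp 2 = Real.exp 1 * Real.exp 1 := by rw [← Real.exp_add]; norm_num
    rw [this]
    nlinarith
  have h6H : 6 * H ≤ Real.exp (L + 2) := by
    rw [Real.exp_add, ← hHL]; nlinarith
  have h3H : 3 * H ≤ Real.exp (L + 2) := by linarith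
  have h2H : 2 * H + 1 ≤ Real.exp (L + 2) := by linarith
  -- the five factors
  have f1 : (4 : ℝ) ^ d ≤ Real.exp (d * 2) := gev_pow_le_exp (by norm_num) (by linarith) d
  have f2 : (2 * H + 1) ^ d ≤ Real.exp (d * (L + 2)) := gev_pow_le_exp (by positivity) h2H d
  have f3 : (3 * H) ^ 10 ≤ Real.exp ((10 : ℕ) * (L + 2)) := gev_pow_le_exp (by positivity) h3H 10
  have hA : (6 * H) ^ 10 + 2 * Real.pi * σ ≤ Real.exp (10 * (L + 2) + 1) := by
    have a1 : (6 * H) ^ 10 ≤ Real.exp ((10 : ℕ) * (L + 2)) := gev_pow_le_exp (by positivity) h6H 10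
    have a2 : 2 * Real.pi * σ ≤ (6 * H) ^ 10 := by
      have hpi : 2 * Real.pi ≤ 7 := by linarith [Real.pi_lt_d2]
      have b1 : 2 * Real.pi * σ ≤ 7 * (5 * d) := mul_le_mul hpi hσ hσ0 (by norm_num)
      have b2 : (d : ℝ) ≤ H := by
        have := Real.add_one_le_exp L
        rw [← hHL] at this
        linarith
      have b3 : 6 * H ≤ (6 * H) ^ 10 := le_self_pow₀ (by linarith) (by norm_num)
      have b4 : (6 * H) ^ 2 ≤ (6 * H) ^ 10 := pow_le_pow_right₀ (by linarith) (by norm_num)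
      nlinarith
    rw [Real.exp_add]
    push_cast at a1
    have a3 : 0 < Real.exp (10 * (L + 2)) := Real.exp_pos _
    nlinarith
  have f4 : ((6 * H) ^ 10 + 2 * Real.pi * σ) ^ (2 * d) ≤ Real.exp (((2 * d : ℕ) : ℝ) * (10 * (L + 2) + 1)) :=
    gev_pow_le_exp (by positivity) hA (2 * d)
  have f5 : ((2 * d).factorial : ℝ) ^ 10 ≤ Real.exp ((10 : ℕ) * (((2 * d : ℕ) : ℝ) * ((2 * d : ℕ) : ℝ))) := by
    apply gev_pow_le_exp (by positivity)
    have c1 : ((2 * d).factorial : ℝ) ≤ (((2 * d : ℕ) : ℝ)) ^ (2 * d) := by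
      exact_mod_cast Nat.factorial_le_pow (2 * d)
    refine c1.trans (gev_pow_le_exp (by positivity) ?_ (2 * d))
    have := Real.add_one_le_exp (((2 * d : ℕ) : ℝ))
    linarith
  have hprod : 4 ^ d * ((2 * H + 1) ^ d * (3 * H) ^ 10 * ((6 * H) ^ 10 + 2 * Real.pi * σ) ^ (2 * d) *
      ((2 * d).factorial : ℝ) ^ 10) ≤
      Real.exp (d * 2) * (Real.exp (d * (L + 2)) * Real.exp ((10 : ℕ) * (L + 2)) *
        Real.exp (((2 * d : ℕ) : ℝ) * (10 * (L + 2) + 1)) *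
        Real.exp ((10 : ℕ) * (((2 * d : ℕ) : ℝ) * ((2 * d : ℕ) : ℝ)))) := by
    gcongr
  refine hprod.trans ?_
  rw [← Real.exp_add, ← Real.exp_add, ← Real.exp_add, ← Real.exp_add]
  unfold qpoly
  apply Real.exp_le_exp.mpr
  have hpw : (1 + L) ^ (2 : ℕ) ≤ (1 + L) ^ (100 : ℝ) := by
    rw [← Real.rpow_natCast]
    exact Real.rpow_le_rpow_of_exponent_le (by linarith) (by norm_num)
  have hdL : (d : ℝ) * L ≤ L * L := mul_le_mul_of_nonneg_right hd (by linarith)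
  have hdd : (d : ℝ) * d ≤ L * L := mul_le_mul hd hd hd0 (by linarith)
  push_cast
  nlinarith

/-- G3 -/
theorem gev_S6_G3 : ∃ C : ℝ, ∀ (d : ℕ) (H : ℝ) (chi : (Fin d → ℝ) → ℂ) (s : Fin d → ℝ),
    Real.exp 2 ≤ H → (d : ℝ) ≤ Real.log H → ContDiff ℝ ∞ chi → (∀ x, chi x ≠ 0 → ∀ i, |x i| ≤ H) →
    (∀ (n : ℕ) (x : Fin d → ℝ),
      ‖iteratedFDeriv ℝ n chi x‖ ≤ H ^ (cGev * ((n : ℝ) + 1)) * ((n : ℝ) + 1) ^ (cGev * ((n : ℝ) + 1))) →
    (∀ c, |s c| ≤ 5) →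
    ∃ a : (Fin d → ℤ) → ℂ, Summable (fun q => ‖a q‖) ∧ ∑' q, ‖a q‖ ≤ qpoly C (Real.log H) ∧
      ∀ x : Fin d → ℝ, HasSum (fun q : Fin d → ℤ => a q * ee (∑ c, (q c : ℝ) * x c))
        (∑' n : Fin d → ℤ, chi (fun c => x c - (n c : ℝ)) * ee (∑ c, s c * (x c - (n c : ℝ)))) := by
  refine ⟨100, fun d H chi s hH hd hsm hsupp hder hs5 => ?_⟩
  have hd0 : (0 : ℝ) ≤ d := Nat.cast_nonneg d
  have hH1 : 1 ≤ H := le_trans (Real.one_le_exp (by norm_num)) hH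
  have hH0 : 0 < H := by linarith
  -- the function to be periodised
  have g1 : Gev 10 ((3 * H) ^ 10) ((6 * H) ^ 10) chi :=
    gev_of_chart hH0.le hsm (fun x _ n => hder n x)
  have hsum0 : 0 ≤ ∑ c, |s c| := Finset.sum_nonneg fun c _ => abs_nonneg _
  have hsum : ∑ c, |s c| ≤ 5 * d := by
    calc ∑ c, |s c| ≤ ∑ _c : Fin d, (5 : ℝ) := Finset.sum_le_sum fun c _ => hs5 c
      _ = 5 * d := by simp [mul_comm]
  have g2 : Gev 10 1 (2 * Real.pi * ∑ c, |s c|) (fun x : Fin d → ℝ => ee (∑ c, s c * x c)) := by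
    have := gev_mono (gev_ee_lin s 0) (by norm_num : 0 ≤ 10) (le_refl _) (by positivity) (le_refl _) (le_refl _)
    exact gev_congr this fun x => by rw [add_zero]
  have g3 := gev_mul (by positivity) (by positivity) g1 g2
  rw [mul_one] at g3
  set G : (Fin d → ℝ) → ℂ := fun x => chi x * ee (∑ c, s c * x c) with hG
  have hGsupp : ∀ x, G x ≠ 0 → ∀ i, |x i| ≤ H := by
    intro x hx
    apply hsupp x
    intro h0
    apply hx
    simp only [hG, h0, zero_mul]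
  have g4 := gev_per hH0.le g3 hGsupp
  rw [Fintype.card_fin] at g4
  set A' : ℝ := (6 * H) ^ 10 + 2 * Real.pi * ∑ c, |s c| with hA'
  set B' : ℝ := (2 * H + 1) ^ d * (3 * H) ^ 10 with hB'
  have hA'1 : 1 ≤ A' := by
    have : (1 : ℝ) ≤ (6 * H) ^ 10 := one_le_pow₀ (by linarith)
    have h2 : 0 ≤ 2 * Real.pi * ∑ c, |s c| := by positivity
    linarith
  have hB'0 : 0 ≤ B' := by positivity
  set X : ℝ := B' * A' ^ (2 * d) * ((2 * d).factorial : ℝ) ^ 10 with hX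
  have hX0 : 0 ≤ X := by positivity
  have hfac : (1 : ℝ) ≤ ((2 * d).factorial : ℝ) ^ 10 :=
    one_le_pow₀ (by exact_mod_cast Nat.one_le_iff_ne_zero.mpr (Nat.factorial_ne_zero _))
  have hBX : B' ≤ X := by
    have h1 : (1 : ℝ) ≤ A' ^ (2 * d) := one_le_pow₀ hA'1
    calc B' = B' * 1 * 1 := by ring
      _ ≤ X := mul_le_mul (mul_le_mul_of_nonneg_left h1 hB'0) hfac (by norm_num) (by positivity)
  have hper : s4a_Per (gevPer G) := gev_per_periodic G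
  obtain ⟨hdec, hsumF⟩ := s4a_periodic_fourier g4.smooth hper (2 * d) (by rw [Fintype.card_fin]) X
    (fun x => (gev_norm_le g4 (Set.mem_univ x)).trans hBX) (fun x => g4.bound x (Set.mem_univ x) (2 * d))
  obtain ⟨hsA, htA⟩ := s4a_lat_weighted (s4a_fc (gevPer G)) 0 X hX0 (fun ℓ => by
    rw [zero_add, Fintype.card_fin]; exact hdec ℓ)
  simp only [pow_zero, mul_one] at hsA htA
  rw [Fintype.card_fin] at htA
  refine ⟨s4a_fc (gevPer G), hsA, htA.trans ?_, fun x => hsumF x⟩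
  exact gev_S6_num hH hd hsum0 hsum

end Claimed.Agent.R258
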